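import Claimed.Agent.R252.S4W.Defs

/-!
# ROW 252 (S0492), unit S4W (post BP-252-S4-WIN, helper79), file 2: FROM `KpCrit` TO THE RAW WINDOW PACKAGE.      CONTRACT file: every `sorry` is a leaf `L-252-S4W-*`; the glue (`k4w_frs`, `k4w_win_ok`, `k4w_hub_win`) is proved.

`k4w_hub_win : K4wHubFr → K4wHubWin`   (`K4wHubFr` = S4Z of helper269: frames for `0 < ell`;   `K4wHubWin` = `KpHubWin` of `S4/Win.lean` + `KpWin.Ok2`).
ORDER OF THE CHOICES (04 l.351-372, 572-672).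
1. `ζc := min (g.ζ / 4) (g.ι g.eps / 16)`;   `k4w_run` : `KpCrit` at tolerance `ζc` on the grid of `M + 1` windows gives `δ` and a run `R`, `R.Ok p S η g δ ζc`.      [RUN]
2. frames at EVERY potential parent: `k4w_frs` from `K4wHubFr` (`0 < ell`) or `k4w_fr_zero` (`ell = 0`, `fr = 1`), through `c.take (R.a j)` and `k4w_take_anc`.      [FR0]
3. prunings for all windows at once: `R.bad p κ fr α k` has power-small mass in the deepest problem (`k4w_bad_neg` from `kb_axis`, `FrOk.major`, `FrOk.lip` and the transfers `k4w_neg_lab`, `k4w_neg_anc`); slow tolerance: `k4w_gd_ex`.      [N1-N4]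
4. the fields of `KpWin.Ok` for EVERY window `j ≤ M`, except `info`.      [F1-F6]
5. the entropy window: `k4w_info` (`S4W/Info.lean`): eventually SOME `j < M` satisfies the information bound; the index is constant along `uf` (`k4w_uf_pigeon`).      [I*]
All leaves are paper-free: `S4C/ChainContract` (k4c_), `Norm/*` (k2n_), `S2s/Api` (k2s_restr_*), `Base/Lang` (kb_) are black boxes.
-/

set_option autoImplicit false
set_option linter.unusedVariables false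

namespace Claimed.Agent.R252

open MeasureTheory Filter Topology
open Claimed.Agent.R255 (uf)
open scoped ENNReal BigOperators

noncomputable section

variable {v : KbVer}

/-! ## 0. Generalities (proved) -/

/-- a finite choice is constant along the ultrafilter -/
theorem k4w_uf_pigeon (M : ℕ) (P : ℕ → ℕ → Prop) (h : ∀ᶠ k in uf, ∃ j < M, P j k) : ∃ j < M, ∀ᶠ k in uf, P j k := by
  have := Claimed.Agent.R255.uf_neBot
  by_contra hcon
  have h1 : ∀ j ∈ Finset.range M, ∀ᶠ k in uf, ¬ P j k := fun j hj =>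
    (Claimed.Agent.R255.uf_em fun k => P j k).resolve_left fun h' => hcon ⟨j, Finset.mem_range.1 hj, h'⟩
  have h2 : ∀ᶠ k in uf, ∀ j ∈ Finset.range M, ¬ P j k := (eventually_all_finset _).2 h1
  obtain ⟨k, ⟨j, hj, hP⟩, hk⟩ := (h.and h2).exists
  exact hk j (Finset.mem_range.2 hj) hP

theorem k4w_prob_len : ∀ {E : KbEx v} (c : K4cCh v E), c.prob c.len = c.last
  | _, K4cCh.nil _ => rfl
  | _, K4cCh.cons _ _ _ t => k4w_prob_len t

theorem k4w_drop_ok {E : KbEx v} (c : K4cCh v E) {d' S η : ℝ} {f : ℕ → ℝ → ℝ → ℝ} {r h nar : ℕ → ℝ} (hc : c.Ok d' S η f r h nar) (m : ℕ) :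
    (c.drop m).Ok d' S η (fun i => f (i + m)) (fun i => r (i + m)) (fun i => h (i + m)) fun i => nar (i + m) :=
  k4c_all_drop c _ hc m

theorem k4w_drop_wfat {E : KbEx v} (c : K4cCh v E) (k : ℕ) (hc : c.WFat k) (m : ℕ) : (c.drop m).WFat k := k4c_all_drop c _ hc m

/-! ## 1. More facts about chains -/

theorem k4w_Zp_lo_one (R : KbRes) (τ : ℝ) (hτ : 0 < τ) (k : ℕ) : (1 : ℝ≥0∞) ≤ ENNReal.ofReal (R.N k ^ τ) * 1 := by
  rw [mul_one, ← ENNReal.ofReal_one]
  exact ENNReal.ofReal_le_ofReal (Real.one_le_rpow (kb_res_one_le R k) hτ.le)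

/-- the product of all normalising constants is inverse subpower -/
theorem k4w_Zp_lo_all {E : KbEx v} (c : K4cCh v E) {d' S η : ℝ} {f : ℕ → ℝ → ℝ → ℝ} {r h nar : ℕ → ℝ} (hc : c.Ok d' S η f r h nar) (τ : ℝ) (hτ : 0 < τ) :
    ∀ᶠ k in uf, 1 ≤ ENNReal.ofReal (E.R.N k ^ τ) * c.Zp k := by
  induction c generalizing f r h nar τ with
  | nil E => exact Eventually.of_forall fun k => k4w_Zp_lo_one E.R τ hτ k
  | cons E Y r' t ih =>
    have h1 := ih (f := fun i => f (i + 1)) (r := fun i => r (i + 1)) (h := fun i => h (i + 1)) (nar := fun i => nar (i + 1)) hc.2 (τ / 2) (by positivity)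
    have h2 := E.k2n_Z_bounds hc.1.cap.ok Y r' (h 0) hc.1.sys.1 (τ / 2) (by positivity)
    filter_upwards [h1, h2] with k a1 a2
    have hN := kb_res_pos E.R k
    have e1 : ENNReal.ofReal (E.R.N k ^ τ) = ENNReal.ofReal (E.R.N k ^ (τ / 2)) * ENNReal.ofReal (E.R.N k ^ (τ / 2)) := by
      rw [← ENNReal.ofReal_mul (Real.rpow_nonneg hN.le _), ← Real.rpow_add hN]
      congr 2
      ring
    have a1' : 1 ≤ ENNReal.ofReal (E.R.N k ^ (τ / 2)) * t.Zp k := a1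
    show 1 ≤ ENNReal.ofReal (E.R.N k ^ τ) * ((Y k).Z * t.Zp k)
    calc (1 : ℝ≥0∞) = 1 * 1 := (one_mul 1).symm
      _ ≤ (ENNReal.ofReal (E.R.N k ^ (τ / 2)) * (Y k).Z) * (ENNReal.ofReal (E.R.N k ^ (τ / 2)) * t.Zp k) := mul_le_mul' a2.2.2 a1'
      _ = ENNReal.ofReal (E.R.N k ^ τ) * ((Y k).Z * t.Zp k) := by
        rw [e1]
        ring

/-- **LEAF L-252-S4W-CH1** (~150 l.).  The normalising constants are inverse subpower.
PROOF.  Recursion on `(c, m)` as in CH-7: `nil` : `1`;  `cons, m + 1` : the statement for `(t, m)` (`(E.norm Y r).R = E.R` by `rfl`);  `cons, 0` : `Zp = (Y k).Z * t.Zp k`, so prove first the statement for `c.Zp` by induction on `c`, with `τ / 2` for the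
head and `τ / 2` for the tail:  `hc.1.sys.1.2.1 (τ/2)` gives `(Y k).Big (N^{τ/2})`, `hc.1.sys.1.1`, `hc.1.cap.ok.2.1` give `WF`, and `KbSys.k2n_mass_le_Z` gives `mass ≤ Z`;  `ENNReal.ofReal_mul`, `Real.rpow_add`. -/
theorem k4w_Zp_lo {E : KbEx v} (c : K4cCh v E) {d' S η : ℝ} {f : ℕ → ℝ → ℝ → ℝ} {r h nar : ℕ → ℝ} (hc : c.Ok d' S η f r h nar) (m : ℕ) (τ : ℝ) (hτ : 0 < τ) :
    ∀ᶠ k in uf, 1 ≤ ENNReal.ofReal (E.R.N k ^ τ) * c.ZpAt m k := by
  induction c generalizing f r h nar m with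
  | nil E => exact Eventually.of_forall fun k => k4w_Zp_lo_one E.R τ hτ k
  | cons E Y r' t ih =>
    cases m with
    | zero => exact k4w_Zp_lo_all (K4cCh.cons E Y r' t) hc τ hτ
    | succ m =>
      exact ih (f := fun i => f (i + 1)) (r := fun i => r (i + 1)) (h := fun i => h (i + 1)) (nar := fun i => nar (i + 1)) hc.2 m

theorem k4w_pth_lab0 : ∀ {E : KbEx v} (c : K4cCh v E) (k : ℕ) (hc : c.WFat k) (Gd : Set (c.last.P k).W) (γ : (E.P k).W) (x : (E.P k).Lam × ℝ)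
    (hx : x ∈ c.pth k Gd γ) (hE : x ∈ (E.P k).Ev γ), ∃ d ∈ Gd, ∃ y ∈ (c.last.P k).Ev d, c.anc k d = γ ∧ c.inc k d y = x
  | _, K4cCh.nil E, k, hc, Gd, γ, x, hx, hE => ⟨γ, hx, x, hE, rfl, rfl⟩
  | _, K4cCh.cons E Y r t, k, hc, Gd, γ, x, hx, hE => by
    have hx' : x ∈ ⋃ c', ⋃ (_ : (Y k).wd c' = γ), ((Y k).k2nBack c' ⁻¹' t.pth k Gd c' ∩ (Y k).S c') := hx
    simp only [Set.mem_iUnion] at hx'
    obtain ⟨c', hw, h1, h2⟩ := hx'
    have hb : (Y k).incOf c' ((Y k).k2nBack c' x) = x := (Y k).k2n_inc_back c' x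
    have hEv : (Y k).k2nBack c' x ∈ ((E.norm Y r).P k).Ev c' := by
      show (Y k).incOf c' ((Y k).k2nBack c' x) ∈ (Y k).S c'
      rw [hb]
      exact h2
    obtain ⟨d, hd, y, hy, e1, e2⟩ := k4w_pth_lab0 t k hc.2 Gd c' ((Y k).k2nBack c' x) h1 hEv
    refine ⟨d, hd, y, hy, ?_, ?_⟩
    · show (Y k).wd (t.anc k d) = γ
      rw [e1]
      exact hw
    · show (Y k).incOf (t.anc k d) (t.inc k d y) = x
      rw [e1, e2]
      exact hb

theorem k4w_pth_lab1 : ∀ {E : KbEx v} (c : K4cCh v E) (k : ℕ) (hc : c.WFat k) (m : ℕ) (Gd : Set (c.last.P k).W) (γ : ((c.prob m).P k).W) (x : ((c.prob m).P k).Lam × ℝ)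
    (hx : x ∈ c.pthAt m k Gd γ) (hE : x ∈ ((c.prob m).P k).Ev γ), ∃ d ∈ Gd, ∃ y ∈ (c.last.P k).Ev d, c.ancAt m k d = γ ∧ c.incAt m k d y = x
  | _, K4cCh.nil E, k, hc, m, Gd, γ, x, hx, hE => ⟨γ, hx, x, hE, rfl, rfl⟩
  | _, K4cCh.cons E Y r t, k, hc, 0, Gd, γ, x, hx, hE => k4w_pth_lab0 (K4cCh.cons E Y r t) k hc Gd γ x hx hE
  | _, K4cCh.cons E Y r t, k, hc, m + 1, Gd, γ, x, hx, hE => k4w_pth_lab1 t k hc.2 m Gd γ x hx hE

/-- **LEAF L-252-S4W-CH2** (~200 l.).  Every incidence of the final path comes from the deepest problem.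
PROOF.  First for `c.pth` (`∃ d ∈ Gd, ∃ y ∈ (c.last.P k).Ev d, c.anc k d = γ ∧ c.inc k d y = x`) by induction on `c`:  `nil` : `d = γ`?  NO: `pth (nil) Gd γ = {x | γ ∈ Gd}` contains incidences outside `Ev`; therefore the statement is about `x ∈ pth ∩ Ev`
for `nil`, and for `cons` the factor `(Y k).S c'` gives, with `y' := (Y k).k2nBack c' x`, that `y' ∈ ((Y k).norm a).Ev c'` and `(Y k).incOf c' y' = x` (`tOf (tauOf t) = t`, `q ≠ 0`).   So prove
`x ∈ c.pth k Gd γ → x ∈ (E.P k).Ev γ → ∃ ..` by induction, then the `At` form by recursion on `(c, m)`. -/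
theorem k4w_pth_lab {E : KbEx v} (c : K4cCh v E) (k : ℕ) (hc : c.WFat k) (m : ℕ) (Gd : Set (c.last.P k).W) (γ : ((c.prob m).P k).W) (x : ((c.prob m).P k).Lam × ℝ)
    (hx : x ∈ c.pthAt m k Gd γ) (hE : x ∈ ((c.prob m).P k).Ev γ) : ∃ d ∈ Gd, ∃ y ∈ (c.last.P k).Ev d, c.ancAt m k d = γ ∧ c.incAt m k d y = x :=
  k4w_pth_lab1 c k hc m Gd γ x hx hE

/-! ## 2. The run -/

/-- telescoping -/
theorem k4w_run_tel (f : ℕ → ℝ) (a m : ℕ) : ∑ i ∈ Finset.range (m + 1), f (i + a) = ∑ i ∈ Finset.range (a + m + 1), f i - ∑ i ∈ Finset.range a, f i := by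
  have h := Finset.sum_range_add f a (m + 1)
  rw [← add_assoc] at h
  rw [h]
  simp only [add_comm a]
  ring

/-- the number of windows and their total length -/
theorem k4w_run_M {p : KpPrm} {g : KpStg} {η τ : ℝ} (hτ : 0 < τ) (hτ1 : τ ≤ 1) (hg : g.Fit p η τ) :
    4 * (g.U + 4) ≤ g.ι * (⌈4 * (g.U + 4) / g.ι⌉₊ : ℝ) ∧ 0 < g.eps * (g.σ g.G + 2) ∧
      ((⌈4 * (g.U + 4) / g.ι⌉₊ : ℝ) + 1) * (g.eps * (g.σ g.G + 2)) ≤ 1 / 8 := by
  have hι := hg.ι_pos
  have hU : 0 < g.U + 4 := by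
    have := hg.U_ge
    have : 0 < 1 / τ := by positivity
    linarith
  have hU4 : 4 ≤ g.U + 4 := by
    have := hg.U_ge
    have : 0 < 1 / τ := by positivity
    linarith
  have hσ : 0 < g.σ g.G + 2 := by
    have := hg.σ_end
    have : 0 < 1 / τ := by positivity
    linarith
  have hw : 0 < g.eps * (g.σ g.G + 2) := mul_pos hg.eps_pos hσ
  set w := g.eps * (g.σ g.G + 2) with hwdef
  have hx0 : 0 ≤ 4 * (g.U + 4) / g.ι := by positivity
  have h1 : 4 * (g.U + 4) / g.ι ≤ (⌈4 * (g.U + 4) / g.ι⌉₊ : ℝ) := Nat.le_ceil _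
  have h2 : (⌈4 * (g.U + 4) / g.ι⌉₊ : ℝ) < 4 * (g.U + 4) / g.ι + 1 := Nat.ceil_lt_add_one hx0
  refine ⟨?_, hw, ?_⟩
  · rw [div_le_iff₀ hι] at h1
    linarith
  · have hmany : 64 * (g.U + 4) * w ≤ g.ι := hg.many
    have h3 : 4 * (g.U + 4) / g.ι * w ≤ 1 / 16 := by
      rw [div_mul_eq_mul_div, div_le_iff₀ hι]
      linarith
    have h4 : 2 * w ≤ 1 / 16 := by
      have := hg.ι_le
      nlinarith
    nlinarith

/-- **the grid** -/
theorem k4w_run_grid (G M : ℕ) (w eps : ℝ) (σ : ℕ → ℝ) (hw : w = eps * (σ G + 2)) (heps : 0 < eps) (hσ0 : 0 < σ 0) (hσs : ∀ m < G, σ m < σ (m + 1))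
    (hMw : ((M : ℝ) + 1) * w ≤ 1 / 8) :
    ∃ tg : ℕ → ℝ, KpGrid ((M + 1) * (G + 2)) tg ∧ (∀ j ≤ M, tg (j * (G + 2)) = 1 / 4 + j * w) ∧
      ∀ j ≤ M, ∀ m ≤ G, tg (j * (G + 2) + 1 + m) = 1 / 4 + j * w + eps * σ m := by
  have hP : 0 < G + 2 := by omega
  have hσG : 0 < σ G := by
    have : ∀ m ≤ G, 0 < σ m := by
      intro m
      induction m with
      | zero => exact fun _ => hσ0
      | succ m ih => exact fun hm => (ih (by omega)).trans (hσs m (by omega))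
    exact this G le_rfl
  have hw0 : 0 < w := by rw [hw]; positivity
  set tg : ℕ → ℝ := fun i => if i < (M + 1) * (G + 2) then
    1 / 4 + ((i / (G + 2) : ℕ) : ℝ) * w + (if i % (G + 2) = 0 then 0 else eps * σ (i % (G + 2) - 1)) else 1 with htg
  have hidx : ∀ j ≤ M, ∀ m < G + 2, j * (G + 2) + m < (M + 1) * (G + 2) ∧ (j * (G + 2) + m) / (G + 2) = j ∧ (j * (G + 2) + m) % (G + 2) = m := by
    intro j hj m hm
    refine ⟨?_, ?_, ?_⟩
    · calc j * (G + 2) + m < j * (G + 2) + (G + 2) := by omega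
        _ = (j + 1) * (G + 2) := by ring
        _ ≤ (M + 1) * (G + 2) := Nat.mul_le_mul_right _ (by omega)
    · rw [mul_comm, Nat.mul_add_div hP, Nat.div_eq_of_lt hm, add_zero]
    · rw [mul_comm, Nat.mul_add_mod, Nat.mod_eq_of_lt hm]
  have ht0 : ∀ j ≤ M, tg (j * (G + 2)) = 1 / 4 + j * w := by
    intro j hj
    obtain ⟨h1, h2, h3⟩ := hidx j hj 0 hP
    rw [add_zero] at h1 h2 h3
    simp only [htg, if_pos h1, h2, h3, if_true, add_zero]
  have ht1 : ∀ j ≤ M, ∀ m ≤ G, tg (j * (G + 2) + 1 + m) = 1 / 4 + j * w + eps * σ m := by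
    intro j hj m hm
    obtain ⟨h1, h2, h3⟩ := hidx j hj (1 + m) (by omega)
    rw [← add_assoc] at h1 h2 h3
    have h4 : ¬ (1 + m = 0) := by omega
    simp only [htg, if_pos h1, h2, h3, if_neg h4, Nat.add_sub_cancel_left]
  refine ⟨tg, ⟨?_, ?_, ?_⟩, ht0, ht1⟩
  · have := ht0 0 (Nat.zero_le _)
    simp only [zero_mul, Nat.cast_zero, add_zero] at this
    rw [this]; norm_num
  · intro i hi
    -- decompose `i`
    obtain ⟨j, m, hm, rfl⟩ : ∃ j m, m < G + 2 ∧ i = j * (G + 2) + m := ⟨i / (G + 2), i % (G + 2), Nat.mod_lt _ hP, by rw [mul_comm]; exact (Nat.div_add_mod i (G + 2)).symm⟩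
    have hj : j ≤ M := by
      by_contra hcon
      have : (M + 1) * (G + 2) ≤ j * (G + 2) := Nat.mul_le_mul_right _ (by omega)
      omega
    have hjM : (j : ℝ) ≤ M := by exact_mod_cast hj
    rcases Nat.eq_zero_or_pos m with rfl | hm0
    · -- parent node to the first node
      have e1 := ht0 j hj
      have e2 := ht1 j hj 0 (Nat.zero_le _)
      rw [add_zero] at e2 ⊢
      rw [e1, e2]
      have : 0 < eps * σ 0 := by positivity
      linarith
    · obtain ⟨m', rfl⟩ : ∃ m', m = 1 + m' := ⟨m - 1, by omega⟩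
      have e1 := ht1 j hj m' (by omega)
      rw [← add_assoc, e1]
      rcases Nat.lt_or_ge m' G with hlt | hge
      · have e2 := ht1 j hj (m' + 1) (by omega)
        rw [show j * (G + 2) + 1 + m' + 1 = j * (G + 2) + 1 + (m' + 1) by ring, e2]
        have := hσs m' hlt
        nlinarith
      · have hm'G : m' = G := by omega
        subst hm'G
        rcases Nat.lt_or_ge j M with hjlt | hjge
        · have e2 := ht0 (j + 1) (by omega)
          rw [show j * (m' + 2) + 1 + m' + 1 = (j + 1) * (m' + 2) by ring, e2, hw]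
          push_cast
          nlinarith
        · have hjM' : j = M := by omega
          subst hjM'
          have e3 : tg (j * (m' + 2) + 1 + m' + 1) = 1 := by
            have : ¬ (j * (m' + 2) + 1 + m' + 1 < (j + 1) * (m' + 2)) := by
              rw [show j * (m' + 2) + 1 + m' + 1 = (j + 1) * (m' + 2) by ring]
              exact lt_irrefl _
            simp only [htg, if_neg this]
          rw [e3]
          have : eps * σ m' ≤ w := by rw [hw]; nlinarith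
          nlinarith
  · simp only [htg, if_neg (lt_irrefl _)]

/-- **the run of a path on the grid** (all fields of `K4wRun.Ok`) -/
theorem k4w_run_aux (S η : ℝ) (p : KpPrm) (g : KpStg) (M : ℕ) (w δ ζc : ℝ) (tg : ℕ → ℝ) (π : KpPath v) (d' : ℝ)
    (hζ : 0 < ζc) (hζ1 : ζc ≤ 1 / 64) (hw0 : 0 < w) (hMw : ((M : ℝ) + 1) * w ≤ 1 / 8) (hMge : 4 * (g.U + 4) ≤ g.ι * M)
    (ht0 : ∀ j ≤ M, tg (j * (g.G + 2)) = 1 / 4 + j * w) (ht1 : ∀ j ≤ M, ∀ m ≤ g.G, tg (j * (g.G + 2) + 1 + m) = 1 / 4 + j * w + g.eps * g.σ m)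
    (hL : (π.E 0).L = 1) (hd : d' ≤ p.d + ζc) (hG : π.G = (M + 1) * (g.G + 2)) (hπ : π.Ok d' S η)
    (hnear : ∀ i ≤ (M + 1) * (g.G + 2), |π.cr i - tg i| ≤ ζc ∧ |π.chz i - p.k * π.cr i| ≤ δ / 4 ∧ (v = KbVer.two → |π.cnar i - p.ell * π.cr i| ≤ ζc))
    (hrem : ∀ i ≤ (M + 1) * (g.G + 2), 1 / 8 ≤ (π.E i).L →
        (∀ r ∈ Set.Icc (0 : ℝ) (π.E i).L, |π.f i r 0 - π.f i 0 0 - p.d * r| ≤ ζc) ∧
        KpExcl1 (π.E i) p.k ζc ∧ (v = KbVer.two → KpExcl2 (π.E i) p.k p.ell δ ζc)) :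
    (⟨π.E 0, k4cOfPath π ((M + 1) * (g.G + 2)) 0, d', π.f, π.r, π.h, π.nar, π.f ((M + 1) * (g.G + 2)), M, g.G⟩ : K4wRun v).Ok p S η g δ ζc := by
  obtain ⟨Gt, hGt⟩ : ∃ Gt : ℕ, Gt = (M + 1) * (g.G + 2) := ⟨_, rfl⟩
  rw [← hGt] at hG hnear hrem ⊢
  have hGπ : 0 + Gt ≤ π.G := by rw [hG, zero_add]
  have hchain : (k4cOfPath π Gt 0).Ok d' S η π.f π.r π.h π.nar := by simpa using k4c_ofPath_ok π d' S η hπ Gt 0 hGπ
  have hlen : (k4cOfPath π Gt 0).len = Gt := k4c_ofPath_len π d' S η hπ Gt 0 hGπ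
  have hprob : ∀ m ≤ Gt, (k4cOfPath π Gt 0).prob m = π.E m := by
    intro m hm
    simpa using k4c_ofPath_prob π d' S η hπ Gt 0 hGπ m hm
  -- indices
  have hidx : ∀ j ≤ M, ∀ m ≤ g.G, j * (g.G + 2) + 1 + m < Gt := by
    intro j hj m hm
    calc j * (g.G + 2) + 1 + m < j * (g.G + 2) + (g.G + 2) := by omega
      _ = (j + 1) * (g.G + 2) := by ring
      _ ≤ (M + 1) * (g.G + 2) := Nat.mul_le_mul_right _ (by omega)
      _ = Gt := hGt.symm
  have hjw : ∀ j ≤ M, 0 ≤ (j : ℝ) * w ∧ (j : ℝ) * w ≤ 1 / 8 := by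
    intro j hj
    have h1 : (j : ℝ) ≤ M := by exact_mod_cast hj
    have h2 : (0 : ℝ) ≤ j := Nat.cast_nonneg _
    constructor
    · positivity
    · nlinarith
  -- cumulative depth of the parents
  have hb : ∀ j ≤ M, |π.cr (j * (g.G + 2)) - (1 / 4 + j * w)| ≤ ζc := by
    intro j hj
    have := (hnear (j * (g.G + 2)) (by have := hidx j hj 0 (Nat.zero_le _); omega)).1
    rwa [ht0 j hj] at this
  have hLa : ∀ j ≤ M, (π.E (j * (g.G + 2) + 1)).L = 1 - π.cr (j * (g.G + 2)) := by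
    intro j hj
    have h1 : j * (g.G + 2) + 1 ≤ Gt := by have := hidx j hj 0 (Nat.zero_le _); omega
    have := k4c_ch_L (k4cOfPath π Gt 0) hchain (j * (g.G + 2) + 1) (by rw [hlen]; exact h1)
    rw [hprob _ h1, hL] at this
    exact this
  have hstep : ∀ i < Gt, K4cStep d' S η (π.f i) (π.r i) (π.h i) (π.nar i) (π.E i) (π.Y i) (π.r i) := fun i hi =>
    ⟨rfl, hπ.cap i (by omega), hπ.r_pos i (by omega), hπ.r_lt i (by omega), hπ.sys i (by omega), hπ.sat i (by omega), hπ.own i (by omega),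
      fun hv => hπ.nar hv i (by omega)⟩
  have hf0 : ∀ i < Gt, π.f (i + 1) 0 0 = 0 := by
    intro i hi
    have hcap := hπ.cap (i + 1) (by omega)
    rw [hπ.step i (by omega)] at hcap
    have := k4c_step_profile (π.E i) (π.Y i) d' S η (π.f i) (π.f (i + 1)) (π.r i) (π.h i) (π.nar i) (π.r i) (hstep i hi) hcap 0 le_rfl
      (by linarith [hπ.r_lt i (by omega)])
    simpa using this
  have hremj : ∀ j ≤ M, (∀ r ∈ Set.Icc (0 : ℝ) (π.E (j * (g.G + 2) + 1)).L, |π.f (j * (g.G + 2) + 1) r 0 - p.d * r| ≤ ζc) ∧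
      KpExcl1 (π.E (j * (g.G + 2) + 1)) p.k ζc ∧ (v = KbVer.two → KpExcl2 (π.E (j * (g.G + 2) + 1)) p.k p.ell δ ζc) := by
    intro j hj
    have h1 : j * (g.G + 2) < Gt := by have := hidx j hj 0 (Nat.zero_le _); omega
    have h2 := abs_le.1 (hb j hj)
    have h3 := hjw j hj
    obtain ⟨a1, a2, a3⟩ := hrem (j * (g.G + 2) + 1) (by omega) (by rw [hLa j hj]; linarith [h2.2])
    refine ⟨fun r hr => ?_, a2, a3⟩
    have := a1 r hr
    rwa [hf0 _ h1, sub_zero] at this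
  -- differences
  have hdiff : ∀ (F : ℕ → ℝ) (j m : ℕ), ∑ i ∈ Finset.range (m + 1), F (i + (j * (g.G + 2) + 1))
      = ∑ i ∈ Finset.range (j * (g.G + 2) + 1 + m + 1), F i - ∑ i ∈ Finset.range (j * (g.G + 2) + 1), F i := fun F j m => k4w_run_tel F _ m
  exact
  { G_eq := rfl
    chain := hchain
    len := hlen.trans hGt
    last := by
      show (k4cOfPath π Gt 0).last.Cap d' S η (π.f Gt)
      rw [← k4w_prob_len, hlen, hprob Gt le_rfl]
      exact hπ.cap Gt (by omega)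
    L_one := hL
    d_le := hd
    M_ge := hMge
    b_lo := fun j hj => by
      show 1 / 4 - ζc ≤ π.cr (j * (g.G + 2))
      have h2 := abs_le.1 (hb j hj)
      have h3 := hjw j hj
      linarith [h2.1]
    b_hi := fun j hj => by
      show π.cr (j * (g.G + 2)) ≤ 1 / 2
      have h2 := abs_le.1 (hb j hj)
      have h3 := hjw j hj
      linarith [h2.2]
    ρ_near := fun j hj m hm => by
      show |∑ i ∈ Finset.range (m + 1), π.r (i + (j * (g.G + 2) + 1)) - g.eps * g.σ m| ≤ 2 * ζc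
      rw [hdiff]
      have h1 := (hnear (j * (g.G + 2) + 1 + m) (hidx j hj m hm).le).1
      rw [ht1 j hj m hm] at h1
      have h2 := abs_le.1 (hb j hj)
      have h1' := abs_le.1 h1
      unfold KpPath.cr at h1' h2
      rw [abs_le]
      constructor <;> linarith [h1'.1, h1'.2, h2.1, h2.2]
    h_near := fun j hj m hm => by
      show |∑ i ∈ Finset.range (m + 1), π.h (i + (j * (g.G + 2) + 1)) - p.k * ∑ i ∈ Finset.range (m + 1), π.r (i + (j * (g.G + 2) + 1))| ≤ δ / 2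
      rw [hdiff, hdiff]
      have h1 := abs_le.1 (hnear (j * (g.G + 2) + 1 + m) (hidx j hj m hm).le).2.1
      have h2 := abs_le.1 (hnear (j * (g.G + 2)) (by have := hidx j hj 0 (Nat.zero_le _); omega)).2.1
      unfold KpPath.cr KpPath.chz at h1 h2
      rw [abs_le]
      constructor <;> linarith [h1.1, h1.2, h2.1, h2.2]
    x_near := fun hv j hj m hm => by
      show |∑ i ∈ Finset.range (m + 1), π.nar (i + (j * (g.G + 2) + 1)) - p.ell * ∑ i ∈ Finset.range (m + 1), π.r (i + (j * (g.G + 2) + 1))| ≤ 2 * ζc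
      rw [hdiff, hdiff]
      have h1 := abs_le.1 ((hnear (j * (g.G + 2) + 1 + m) (hidx j hj m hm).le).2.2 hv)
      have h2 := abs_le.1 ((hnear (j * (g.G + 2)) (by have := hidx j hj 0 (Nat.zero_le _); omega)).2.2 hv)
      unfold KpPath.cr KpPath.cnar at h1 h2
      rw [abs_le]
      constructor <;> linarith [h1.1, h1.2, h2.1, h2.2]
    xb_near := fun hv j hj => (hnear (j * (g.G + 2)) (by have := hidx j hj 0 (Nat.zero_le _); omega)).2.2 hv
    prof := fun j hj => by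
      show ∀ s ∈ Set.Icc (0 : ℝ) ((k4cOfPath π Gt 0).prob (j * (g.G + 2) + 1)).L, |π.f (j * (g.G + 2) + 1) s 0 - p.d * s| ≤ ζc
      rw [hprob _ (by have := hidx j hj 0 (Nat.zero_le _); omega)]
      exact (hremj j hj).1
    ex1 := fun j hj => by
      show KpExcl1 ((k4cOfPath π Gt 0).prob (j * (g.G + 2) + 1)) p.k ζc
      rw [hprob _ (by have := hidx j hj 0 (Nat.zero_le _); omega)]
      exact (hremj j hj).2.1
    ex2 := fun hv j hj => by
      show KpExcl2 ((k4cOfPath π Gt 0).prob (j * (g.G + 2) + 1)) p.k p.ell δ ζc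
      rw [hprob _ (by have := hidx j hj 0 (Nat.zero_le _); omega)]
      exact (hremj j hj).2.2 hv }

/-- **L-252-S4W-RUN** (PROVED, helper114) (~450 l.; may be cut in RUN-a = the grid, RUN-b = the chain).   NEEDS `S4/Crit.lean` v3 (`|chz g - k cr g| ≤ δ / 4`, helper128); with the present `≤ δ` only `h_near` fails.
PROOF.  `w := g.eps * (g.σ g.G + 2)`, `M := ⌈4 (g.U + 4) / g.ι⌉₊`, `Gt := (M + 1) (g.G + 2)`.   Grid: `tg i := 1` for `i ≥ Gt`, otherwise with `j := i / (g.G + 2)`, `m := i % (g.G + 2)`:  `tg i := 1/4 + j w` if `m = 0`, `1/4 + j w + g.eps g.σ (m - 1)` else.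
`KpGrid Gt tg` from `hg.σ_zero`, `hg.σ_step`, `hg.eps_pos`;  `(M + 1) w ≤ 1/8` from `hg.many` (`64 (U + 4) w ≤ ι`), `hg.ι_le`, `hg.U_ge`.
`hc ζc` gives `δ`, then `π, d'` on this grid.   `R := ⟨π.E 0, k4cOfPath π Gt 0, d', π.f, π.r, π.h, π.nar, π.f Gt, M, g.G⟩`.
`chain` : `k4c_ofPath_ok` (`0 + i = i`: `simpa`);  `len` : `k4c_ofPath_len`;  `last` : `k4w_prob_len`, `k4c_ofPath_prob`, `π.Ok.cap`;  `R.F j = π.E (R.a j)` : `k4c_ofPath_prob` (rewrite, never unfold).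
`R.b j = π.cr (j (G+2))`, `R.ρ j m = π.cr (R.a j + m) - π.cr (j (G+2))` (`Finset.sum_range_add_sum..` / `Finset.range_eq_Ico`, `Finset.sum_Ico_consecutive`), the same for `hh`, `xx`, `xb`; then the triangle inequality.
`prof` : the clause of `KpCrit` for `g = R.a j` (`(π.E g).L = 1 - R.b j ≥ 1/2` by `k4c_ch_L`) and `π.f g 0 0 = 0` : `k4c_step_profile` at `s = 0` for the step `g - 1` (or the new field `link`). -/
theorem k4w_run (S η τ : ℝ) (p : KpPrm) (g : KpStg) (hη : 0 < η) (hp : p.Ok) (hpS : p.S = S) (hc : KpCrit v S η p) (hτ : 0 < τ) (hτ1 : τ ≤ 1) (hg : g.Fit p η τ)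
    (ζc : ℝ) (hζ : 0 < ζc) (hζ1 : ζc ≤ 1 / 64) : ∃ (δ : ℝ) (R : K4wRun v), 0 < δ ∧ δ ≤ ζc ∧ R.Ok p S η g δ ζc := by
  obtain ⟨hM1, hw0, hM2⟩ := k4w_run_M hτ hτ1 hg
  obtain ⟨M, hM⟩ : ∃ M : ℕ, M = ⌈4 * (g.U + 4) / g.ι⌉₊ := ⟨_, rfl⟩
  rw [← hM] at hM1 hM2
  obtain ⟨tg, hgrid, ht0, ht1⟩ := k4w_run_grid g.G M (g.eps * (g.σ g.G + 2)) g.eps g.σ rfl hg.eps_pos (by linarith [hg.σ_zero.1])
    (fun m hm => by linarith [(hg.σ_step m hm).1]) hM2
  obtain ⟨δ, hδ, hδζ, hpath⟩ := hc ζc hζ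
  obtain ⟨π, d', hL, hd, hG, hπ, hnear, hrem⟩ := hpath _ tg hgrid
  exact ⟨δ, _, hδ, hδζ, k4w_run_aux S η p g M _ δ ζc tg π d' hζ hζ1 hw0 hM2 hM1 ht0 ht1 hL hd hG hπ hnear hrem⟩

/-! ## 3. Frames -/

theorem k4w_fr0_inv2 (D Di : Matrix (Fin 2) (Fin 2) ℝ) (h : D * Di = 1) : kbMn Di * |D.det| = kbMn D := by
  have h00 := congrFun (congrFun h 0) 0
  have h01 := congrFun (congrFun h 0) 1
  have h10 := congrFun (congrFun h 1) 0
  have h11 := congrFun (congrFun h 1) 1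
  simp only [Matrix.mul_apply, Fin.sum_univ_two, Matrix.one_apply_eq] at h00 h11
  rw [Matrix.mul_apply, Fin.sum_univ_two, Matrix.one_apply_ne (by decide)] at h01 h10
  rw [Matrix.det_fin_two]
  have e00 : Di 0 0 * (D 0 0 * D 1 1 - D 0 1 * D 1 0) = D 1 1 := by linear_combination D 1 1 * h00 - D 0 1 * h10
  have e10 : Di 1 0 * (D 0 0 * D 1 1 - D 0 1 * D 1 0) = -D 1 0 := by linear_combination D 0 0 * h10 - D 1 0 * h00
  have e01 : Di 0 1 * (D 0 0 * D 1 1 - D 0 1 * D 1 0) = -D 0 1 := by linear_combination D 1 1 * h01 - D 0 1 * h11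
  have e11 : Di 1 1 * (D 0 0 * D 1 1 - D 0 1 * D 1 0) = D 0 0 := by linear_combination D 0 0 * h11 - D 1 0 * h01
  simp only [kbMn, Fin.sum_univ_two]
  rw [add_mul, add_mul, add_mul, ← abs_mul, ← abs_mul, ← abs_mul, ← abs_mul, e00, e01, e10, e11, abs_neg, abs_neg]
  ring

theorem k4w_fr0_inv1 (D Di : Matrix (Fin 1) (Fin 1) ℝ) (h : D * Di = 1) : kbMn Di * kbMn D = 1 := by
  have h00 := congrFun (congrFun h 0) 0
  simp only [Matrix.mul_apply, Finset.univ_unique, Finset.sum_singleton, Fin.default_eq_zero, Matrix.one_apply_eq] at h00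
  simp only [kbMn, Finset.univ_unique, Finset.sum_singleton, Fin.default_eq_zero]
  rw [← abs_mul, mul_comm, h00, abs_one]

/-- a world in which the velocity is not `Λ`-Lipschitz in the root velocity has a large inverse frame at the last node -/
theorem k4w_fr0_bad {E : KbEx v} (c : K4cCh v E) (k : ℕ) (hc : c.WFat k) (m : ℕ) (hm : m + 1 = c.len) (p : KpPrm) (hell : p.ell = 0) (Λ : ℝ)
    (γ : (c.last.P k).W) (hγ : γ ∈ c.ancLast.lipBad p (fun _ _ => 1) Λ k) :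
    Λ < (c.sys m k).q * kbMn ((c.sys m k).ch (c.lab k m γ)).Di := by
  obtain ⟨l, -, l', -, hlt⟩ := hγ
  have hwf : (c.sys m k).WF := k4c_ch_WF c k hc m (by omega)
  have hq : 0 < (c.sys m k).q := k2s_q_pos _
  obtain ⟨ΔF, hΔF⟩ : ∃ ΔF : KbB v, ΔF = kbV ((c.last.P k).co γ l) - kbV ((c.last.P k).co γ l') := ⟨_, rfl⟩
  obtain ⟨Δr, hΔr⟩ : ∃ Δr : KbB v, Δr = c.ancLast.rv k γ l - c.ancLast.rv k γ l' := ⟨_, rfl⟩
  have e0 : kpPv p ((1 : Matrix (Fin v.j) (Fin v.j) ℝ).mulVec ΔF) = ΔF := by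
    unfold kpPv
    rw [if_neg (by rw [hell]; exact lt_irrefl 0), Matrix.one_mulVec]
  have e1 : Δr = (1 / (c.sys m k).q) • ((c.sys m k).ch (c.lab k m γ)).D.mulVec ΔF := by
    rw [hΔr, hΔF]
    show kbV ((E.P k).co (c.anc k γ) (c.lam k l)) - kbV ((E.P k).co (c.anc k γ) (c.lam k l')) = _
    rw [k4c_ch_vel c k hc m hm γ l, k4c_ch_vel c k hc m hm γ l', Matrix.mulVec_sub, smul_sub]
    abel
  have e2 : ΔF = (c.sys m k).q • ((c.sys m k).ch (c.lab k m γ)).Di.mulVec Δr := by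
    rw [e1, Matrix.mulVec_smul, Matrix.mulVec_mulVec, k2s_inv' _ hwf, Matrix.one_mulVec, smul_smul]
    rw [mul_one_div_cancel hq.ne', one_smul]
  have e3 : ‖ΔF‖ ≤ (c.sys m k).q * kbMn ((c.sys m k).ch (c.lab k m γ)).Di * ‖Δr‖ := by
    calc ‖ΔF‖ = (c.sys m k).q * ‖((c.sys m k).ch (c.lab k m γ)).Di.mulVec Δr‖ := by
          conv_lhs => rw [e2]
          rw [norm_smul, Real.norm_eq_abs, abs_of_pos hq]
      _ ≤ (c.sys m k).q * (kbMn ((c.sys m k).ch (c.lab k m γ)).Di * ‖Δr‖) := mul_le_mul_of_nonneg_left (k2s_mulVec_le _ _) hq.le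
      _ = _ := by ring
  have hlt' : Λ * ‖Δr‖ < ‖ΔF‖ := by
    have h5 : Λ * ‖Δr‖ < ‖kpPv p ((1 : Matrix (Fin v.j) (Fin v.j) ℝ).mulVec ΔF)‖ := by
      rw [hΔr, hΔF]
      exact hlt
    rwa [e0] at h5
  have h4 : Λ * ‖Δr‖ < (c.sys m k).q * kbMn ((c.sys m k).ch (c.lab k m γ)).Di * ‖Δr‖ := lt_of_lt_of_le hlt' e3
  exact lt_of_mul_lt_mul_right h4 (norm_nonneg _)

/-- transfer of the mass of a set of deepest worlds to the labels of a node -/
theorem k4w_fr0_mass {E : KbEx v} (c : K4cCh v E) (k : ℕ) (hc : c.WFat k) (hL : (c.last.P k).WF) (m : ℕ) (hm : m < c.len) (B : Set (c.last.P k).W)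
    (df : (c.sys m k).C → Prop) [DecidablePred df] (hB : ∀ γ ∈ B, df (c.lab k m γ)) :
    (c.last.P k).mass (fun γ => {_x | γ ∈ B}) * c.Zp k ≤ ∑ c', if df c' then (E.P k).om ((c.sys m k).wd c') * (c.sys m k).mC c' else 0 := by
  classical
  have hwf : (c.sys m k).WF := k4c_ch_WF c k hc m hm
  obtain ⟨U, hU⟩ : ∃ U : (E.P k).W → Set ((E.P k).Lam × ℝ), U = fun γ => ⋃ c', ⋃ (_ : df c' ∧ (c.sys m k).wd c' = γ), (c.sys m k).S c' := ⟨_, rfl⟩
  have mU : ∀ γ, MeasurableSet (U γ) := by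
    intro γ
    rw [hU]
    exact MeasurableSet.iUnion fun c' => MeasurableSet.iUnion fun _ => hwf.S_meas c'
  have h1 : (c.last.P k).mass (fun γ => {_x | γ ∈ B}) ≤ (c.last.P k).mass (fun d => {x | d ∈ Set.univ ∧ c.inc k d x ∈ U (c.anc k d)}) := by
    refine k2a_mass_mono_ae fun d => ?_
    have h0 : ∀ᵐ x ∂(c.last.P k).mu d, x ∈ (c.last.P k).Ev d := by
      rw [ae_iff]
      exact k2s_mu_compl _ hL d
    filter_upwards [h0] with x hx hd
    refine ⟨Set.mem_univ _, ?_⟩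
    rw [hU]
    simp only [Set.mem_iUnion]
    exact ⟨c.lab k m d, ⟨hB d hd, k4c_ch_lab_wd c k m d⟩, k4c_ch_lab_S c k hc m hm d x hx⟩
  have h2 : ∀ γ, (E.P k).mu γ (U γ) ≤ ∑ c', if df c' ∧ (c.sys m k).wd c' = γ then (E.P k).mu γ ((c.sys m k).S c') else 0 := by
    intro γ
    rw [hU]
    refine (measure_iUnion_fintype_le _ _).trans (Finset.sum_le_sum fun c' _ => ?_)
    by_cases hcc : df c' ∧ (c.sys m k).wd c' = γ
    · rw [if_pos hcc]
      exact measure_mono (Set.iUnion_subset fun _ => le_rfl)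
    · rw [if_neg hcc]
      have : (⋃ (_ : df c' ∧ (c.sys m k).wd c' = γ), (c.sys m k).S c') = ∅ := by
        simp [hcc]
      rw [this, measure_empty]
  calc (c.last.P k).mass (fun γ => {_x | γ ∈ B}) * c.Zp k
      ≤ (c.last.P k).mass (fun d => {x | d ∈ Set.univ ∧ c.inc k d x ∈ U (c.anc k d)}) * c.Zp k := mul_le_mul_left h1 _
    _ = (E.P k).mass fun γ => U γ ∩ c.pth k Set.univ γ := k4c_ch_mass c k hc Set.univ U mU
    _ ≤ (E.P k).mass U := k2a_mass_mono fun γ => Set.inter_subset_left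
    _ = ∑ γ, (E.P k).om γ * (E.P k).mu γ (U γ) := rfl
    _ ≤ ∑ γ, (E.P k).om γ * ∑ c', if df c' ∧ (c.sys m k).wd c' = γ then (E.P k).mu γ ((c.sys m k).S c') else 0 :=
        Finset.sum_le_sum fun γ _ => mul_le_mul_right (h2 γ) _
    _ = ∑ c', ∑ γ, (E.P k).om γ * (if df c' ∧ (c.sys m k).wd c' = γ then (E.P k).mu γ ((c.sys m k).S c') else 0) := by
        simp only [Finset.mul_sum]
        exact Finset.sum_comm
    _ = ∑ c', if df c' then (E.P k).om ((c.sys m k).wd c') * (c.sys m k).mC c' else 0 := by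
        refine Finset.sum_congr rfl fun c' _ => ?_
        rw [Finset.sum_eq_single ((c.sys m k).wd c')]
        · by_cases hd : df c'
          · rw [if_pos ⟨hd, rfl⟩, if_pos hd]
            rfl
          · rw [if_neg (fun h => hd h.1), if_neg hd, mul_zero]
        · intro γ _ hne
          rw [if_neg (fun h => hne h.2.symm), mul_zero]
        · intro h
          exact absurd (Finset.mem_univ _) h

theorem k4w_fr0_Zp0 : ∀ {E : KbEx v} (c : K4cCh v E) (k : ℕ), c.ZpAt 0 k = c.Zp k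
  | _, K4cCh.nil _, _ => rfl
  | _, K4cCh.cons _ _ _ _, _ => rfl

theorem k4w_fr0_cap {E : KbEx v} (c : K4cCh v E) {d' S η : ℝ} {f : ℕ → ℝ → ℝ → ℝ} {r h nar : ℕ → ℝ} (hc : c.Ok d' S η f r h nar) (hlen : 0 < c.len) :
    E.Cap d' S η (f 0) := by
  have h1 := k4c_ch_cap c hc 0 hlen
  rwa [k4c_prob_zero] at h1

/-- version 2: eventually no world is bad -/
theorem k4w_fr0_lip2 {S η d' κ : ℝ} (p : KpPrm) {E : KbEx KbVer.two} (c : K4cCh KbVer.two E) {f : ℕ → ℝ → ℝ → ℝ} {r h nar : ℕ → ℝ} (hell : p.ell = 0)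
    (hc : c.Ok d' S η f r h nar) (m : ℕ) (hm : m + 1 = c.len) (hκ : ∑ i ∈ Finset.range c.len, nar i ≤ κ) (α : ℝ) (hα : 0 < α) :
    ∀ᶠ k in uf, ∀ γ, γ ∉ c.ancLast.lipBad p (fun _ _ => 1) (c.last.R.N k ^ (κ + α)) k := by
  have hmlt : m < c.len := by omega
  have hsys := k4c_ch_sys c hc m hmlt
  have hnar := k4c_ch_narrow c rfl hc m hmlt
  filter_upwards [k4c_ch_wfat c hc, hsys.2.1 (α / 2) (half_pos hα), hnar (α / 2) (half_pos hα)] with k hwf hgeo hn γ hγ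
  have h1 := k4w_fr0_bad c k hwf m hm p hell _ γ hγ
  rw [k4w_last_R c] at h1
  have hY : (c.sys m k).WF := k4c_ch_WF c k hwf m hmlt
  obtain ⟨c', hc'⟩ : ∃ c', c' = c.lab k m γ := ⟨_, rfl⟩
  rw [← hc'] at h1
  have hJ : 0 < ((c.sys m k).ch c').J := k2s_J_pos _ hY c'
  have hq := k2s_q_pos (c.sys m k)
  have e1 : kbMn ((c.sys m k).ch c').Di * ((c.sys m k).ch c').J = kbMn ((c.sys m k).ch c').D := k4w_fr0_inv2 _ _ (hY.inv c')
  have e2 := hgeo.1.size c'
  have e3 := (hn c').2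
  have hN0 := kb_res_pos E.R k
  have hNa : 0 < E.R.N k ^ (α / 2) := Real.rpow_pos_of_pos hN0 _
  have e5 : kbMn ((c.sys m k).ch c').Di = kbMn ((c.sys m k).ch c').D / ((c.sys m k).ch c').J := by
    rw [← e1]
    field_simp
  have e4 : (c.sys m k).q * kbMn ((c.sys m k).ch c').Di ≤ E.R.N k ^ (κ + α) := by
    calc (c.sys m k).q * kbMn ((c.sys m k).ch c').Di = (c.sys m k).q * kbMn ((c.sys m k).ch c').D / ((c.sys m k).ch c').J := by rw [e5]; ring
      _ ≤ (c.sys m k).q * ((c.sys m k).q * E.R.N k ^ (α / 2)) / ((c.sys m k).ch c').J :=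
          div_le_div_of_nonneg_right (mul_le_mul_of_nonneg_left e2 hq.le) hJ.le
      _ = (c.sys m k).q ^ 2 / ((c.sys m k).ch c').J * E.R.N k ^ (α / 2) := by ring
      _ ≤ E.R.N k ^ (-(-∑ i ∈ Finset.range (m + 1), nar i) + α / 2) * E.R.N k ^ (α / 2) := mul_le_mul_of_nonneg_right e3 hNa.le
      _ = E.R.N k ^ (∑ i ∈ Finset.range (m + 1), nar i + α) := by
          rw [← Real.rpow_add hN0]
          congr 1
          ring
      _ ≤ E.R.N k ^ (κ + α) := by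
          refine Real.rpow_le_rpow_of_exponent_le (kb_res_one_le _ _) ?_
          rw [hm]
          linarith
  linarith

/-- version 1: the bad worlds are the deficient labels of the last node -/
theorem k4w_fr0_lip1 {S η d' κ : ℝ} (p : KpPrm) {E : KbEx KbVer.one} (c : K4cCh KbVer.one E) {f : ℕ → ℝ → ℝ → ℝ} {r h nar : ℕ → ℝ} (hS : 0 < S) (hη : 0 < η)
    (hell : p.ell = 0) (hc : c.Ok d' S η f r h nar) (hLok : c.last.Ok) (m : ℕ) (hm : m + 1 = c.len) (hκ0 : 0 ≤ κ) (α : ℝ) (hα : 0 < α) :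
    K2aPow c.last.R (k2aM c.last fun k γ => {_x | γ ∈ c.ancLast.lipBad p (fun _ _ => 1) (c.last.R.N k ^ (κ + α)) k}) := by
  classical
  have hmlt : m < c.len := by omega
  have hEcap : E.Cap d' S η (f 0) := k4w_fr0_cap c hc (by omega)
  obtain ⟨c0, hc0, hax⟩ := kb_axis E d' S η hS hη (f 0) hEcap (c.sys m) (c.dp m) _ ⟨k4c_ch_sys c hc m hmlt, k4c_ch_known c hc m hmlt⟩ α hα
  refine ⟨c0 / 2, half_pos hc0, ?_⟩
  filter_upwards [k4c_ch_wfat c hc, hax, k4w_Zp_lo c hc 0 (c0 / 2) (half_pos hc0), k2a_ok_wf hLok, k2a_ok_wf hEcap.ok] with k hwf hk hZ hL hEk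
  rw [k4w_fr0_Zp0] at hZ
  have hY : (c.sys m k).WF := k4c_ch_WF c k hwf m hmlt
  have hq := k2s_q_pos (c.sys m k)
  have hN0 := kb_res_pos E.R k
  have hB : ∀ γ ∈ c.ancLast.lipBad p (fun _ _ => 1) (c.last.R.N k ^ (κ + α)) k,
      kbMn ((c.sys m k).ch (c.lab k m γ)).D ≤ E.R.N k ^ (-α) * (c.sys m k).q := by
    intro γ hγ
    have h1 := k4w_fr0_bad c k hwf m hm p hell _ γ hγ
    rw [k4w_last_R c] at h1
    have e1 : kbMn ((c.sys m k).ch (c.lab k m γ)).Di * kbMn ((c.sys m k).ch (c.lab k m γ)).D = 1 := k4w_fr0_inv1 _ _ (hY.inv _)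
    have hD0 : 0 ≤ kbMn ((c.sys m k).ch (c.lab k m γ)).D := k2n_Mn_nonneg _
    have hNa : E.R.N k ^ α ≤ E.R.N k ^ (κ + α) := Real.rpow_le_rpow_of_exponent_le (kb_res_one_le _ _) (by linarith)
    have hNp : 0 < E.R.N k ^ α := Real.rpow_pos_of_pos hN0 _
    have h2 : E.R.N k ^ α * kbMn ((c.sys m k).ch (c.lab k m γ)).D ≤ (c.sys m k).q := by
      calc E.R.N k ^ α * kbMn ((c.sys m k).ch (c.lab k m γ)).D
          ≤ ((c.sys m k).q * kbMn ((c.sys m k).ch (c.lab k m γ)).Di) * kbMn ((c.sys m k).ch (c.lab k m γ)).D :=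
            mul_le_mul_of_nonneg_right (hNa.trans h1.le) hD0
        _ = (c.sys m k).q := by rw [mul_assoc, e1, mul_one]
    rw [Real.rpow_neg hN0.le, ← div_eq_inv_mul, le_div_iff₀ hNp, mul_comm]
    exact h2
  have hmass := k4w_fr0_mass c k hwf hL m hmlt _ (fun c' => kbMn ((c.sys m k).ch c').D ≤ E.R.N k ^ (-α) * (c.sys m k).q) hB
  have hfin : (∑ c', if kbMn ((c.sys m k).ch c').D ≤ E.R.N k ^ (-α) * (c.sys m k).q then (E.P k).om ((c.sys m k).wd c') * (c.sys m k).mC c' else 0) ≠ ⊤ := by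
    refine ne_top_of_le_ne_top ENNReal.one_ne_top (le_trans ?_ (k2s_mass_le_one _ hEk hY))
    refine Finset.sum_le_sum fun c' _ => ?_
    split_ifs
    · exact le_rfl
    · exact zero_le
  have hsum : (∑ c', if kbMn ((c.sys m k).ch c').D ≤ E.R.N k ^ (-α) * (c.sys m k).q then (E.P k).om ((c.sys m k).wd c') * (c.sys m k).mC c' else 0)
      ≤ ENNReal.ofReal (E.R.N k ^ (-c0)) :=
    (ENNReal.le_ofReal_iff_toReal_le hfin (Real.rpow_pos_of_pos hN0 _).le).2 hk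
  rw [k4w_last_R c]
  rw [k4w_last_R c] at hmass
  show (c.last.P k).mass (fun γ => {_x | γ ∈ c.ancLast.lipBad p (fun _ _ => 1) (E.R.N k ^ (κ + α)) k}) ≤ _
  calc (c.last.P k).mass (fun γ => {_x | γ ∈ c.ancLast.lipBad p (fun _ _ => 1) (E.R.N k ^ (κ + α)) k})
      = 1 * (c.last.P k).mass (fun γ => {_x | γ ∈ c.ancLast.lipBad p (fun _ _ => 1) (E.R.N k ^ (κ + α)) k}) := (one_mul _).symm
    _ ≤ ENNReal.ofReal (E.R.N k ^ (c0 / 2)) * c.Zp k * (c.last.P k).mass (fun γ => {_x | γ ∈ c.ancLast.lipBad p (fun _ _ => 1) (E.R.N k ^ (κ + α)) k}) :=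
        mul_le_mul_left hZ _
    _ = ENNReal.ofReal (E.R.N k ^ (c0 / 2)) * ((c.last.P k).mass (fun γ => {_x | γ ∈ c.ancLast.lipBad p (fun _ _ => 1) (E.R.N k ^ (κ + α)) k}) * c.Zp k) := by
        ring
    _ ≤ ENNReal.ofReal (E.R.N k ^ (c0 / 2)) * ENNReal.ofReal (E.R.N k ^ (-c0)) := mul_le_mul_right (hmass.trans hsum) _
    _ = ENNReal.ofReal (E.R.N k ^ (-(c0 / 2))) := by
        rw [k2a_sq_ofReal_mul]
        congr 2
        ring

/-- **LEAF L-252-S4W-FR0** (~350 l.).  `ell = 0` : the trivial frames.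
PROOF.  `inv, bd, one` trivial (`kbMn 1 ≤ 2 ≤ N^τ` eventually; `kbMn 1 = v.j`), `major` vacuous.
`ang` : the label is `c.last.hv L u` (`funext`; `Matrix.one_mulVec`, `kpPv` with `¬ 0 < ell`), `hF.hom.joint L _ u _` gives `TypUp .. (fF L u)`, `hF.ang u` gives `fF L 0 + S u ≤ fF L u`;  `TypUp` is antitone in the exponent
(`above` at a larger threshold is smaller; `KbPow` of a smaller mass: `kb_pow_of_le`/direct, masses are finite: `≤ 1` by `WF`).
`lip` : `k4c_ch_vel` (`m + 1 = c.len`) : `ΔV_root = (1/q) D ΔV_F`, hence `ΔV_F = q Di ΔV_root` (`Di * D = 1` from `WF.inv`), `‖ΔV_F‖ ≤ q kbMn Di ‖ΔV_root‖` (`k4c_mulVec_le`).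
  version 2: `Di = adj D / det D`, `kbMn Di = kbMn D / J ≤ N^τ q / J` (`Geo.size`), `q² / J ≤ N^{x + τ}` (`k4c_ch_narrow`), `x ≤ κ`: NO world is bad eventually, the mass is `0`.
  version 1: `kbMn Di = 1 / kbMn D`; the worlds with `q > N^α kbMn D` are the deficient labels of the atlas `c.sys m` of `E` (`k4c_ch_sys`, `k4c_ch_known`): `kb_axis`; masses by `k4c_ch_mass` (`Gd = univ`, `U γ = ⋃` of the selections of the deficient labels,
  `k4c_ch_lab_S`) and `k4w_Zp_lo`. -/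
theorem k4w_fr_zero (S η d' umax e κ : ℝ) (p : KpPrm) (E : KbEx v) (c : K4cCh v E) (f : ℕ → ℝ → ℝ → ℝ) (r h nar : ℕ → ℝ) (fF : ℝ → ℝ → ℝ)
    (hS : 0 < S) (hη : 0 < η) (hpS : p.S = S) (hell : p.ell = 0) (hc : c.Ok d' S η f r h nar) (hlen : 0 < c.len) (hF : c.last.Cap d' S η fF) (he : e = fF c.last.L 0)
    (hu : 0 < umax) (huL : umax ≤ η * c.last.L) (hκ0 : 0 ≤ κ) (hκ : v = KbVer.two → ∑ i ∈ Finset.range c.len, nar i ≤ κ) :
    c.ancLast.FrOk p umax e κ (fun _ _ => 1) fun _ _ => 1 := by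
  have hFok : c.last.Ok := hF.ok
  obtain ⟨m, hm⟩ : ∃ m, m + 1 = c.len := ⟨c.len - 1, by omega⟩
  refine ⟨fun k γ => one_mul 1, ?_, fun _ k γ => ⟨rfl, rfl⟩, ?_, ?_, ?_⟩
  · -- bd
    intro τ hτ
    filter_upwards [(kb_rpow_tendsto c.last.R hτ).eventually_ge_atTop (kbMn (1 : Matrix (Fin v.j) (Fin v.j) ℝ))] with k hk γ
    exact ⟨hk, hk⟩
  · -- ang
    intro u hu0 hu1
    have hlab : (fun k => (c.last.P k).lpair ((c.last.P k).hid (c.last.a c.last.L k)) (kpVb (c.last.P k) p (fun _ => 1) (c.last.a u k)))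
        = c.last.hv c.last.L u := by
      funext k
      show _ = (c.last.P k).lpair ((c.last.P k).hid (c.last.a c.last.L k)) ((c.last.P k).vel (c.last.a u k))
      congr 1
      funext γ x i
      unfold kpVb kpPv KbPb.vel
      rw [if_neg (by rw [hell]; exact lt_irrefl 0), Matrix.one_mulVec]
    show c.last.TypUp (fun k => (c.last.P k).lpair ((c.last.P k).hid (c.last.a c.last.L k)) (kpVb (c.last.P k) p (fun _ => 1) (c.last.a u k))) (e + p.S * u)
    rw [hlab]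
    refine k2a_up_mono hFok ?_ (hF.hom.joint c.last.L ⟨hFok.1.le, le_rfl⟩ u hu0.le).1
    rw [he, hpS]
    exact hF.ang u hu0 (hu1.trans huL)
  · -- major
    intro h0
    rw [hell] at h0
    exact absurd h0 (lt_irrefl 0)
  · -- lip
    intro α hα
    show KbPow c.last.R (c.last.massOf fun k γ => {_x | γ ∈ c.ancLast.lipBad p (fun _ _ => 1) (c.last.R.N k ^ (κ + α)) k})
    rw [k2a_pow_iff hFok]
    cases v with
    | one => exact k4w_fr0_lip1 p c hS hη hell hc hFok m hm hκ0 α hα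
    | two =>
      refine k2a_pow_zero ?_
      filter_upwards [k4w_fr0_lip2 p c hell hc m hm (hκ rfl) α hα] with k hk
      show (c.last.P k).mass (fun γ => {_x | γ ∈ c.ancLast.lipBad p (fun _ _ => 1) (c.last.R.N k ^ (κ + α)) k}) = 0
      refine Finset.sum_eq_zero fun γ _ => ?_
      have h1 : (c.last.P k).mu γ {_x | γ ∈ c.ancLast.lipBad p (fun _ _ => 1) (c.last.R.N k ^ (κ + α)) k} = 0 :=
        measure_mono_null (t := ∅) (fun x hx => (hk γ hx).elim) measure_empty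
      exact mul_eq_zero_of_right _ h1

section

variable {R : K4wRun v} {p : KpPrm} {S η τ δ ζc κ : ℝ} {g : KpStg}

/-- bookkeeping of the indices -/
theorem k4w_a_lt (hR : R.Ok p S η g δ ζc) {j m : ℕ} (hj : j ≤ R.M) (hm : m ≤ R.G) : R.a j + m < R.c.len := by
  rw [hR.len]
  unfold K4wRun.a
  calc j * (R.G + 2) + 1 + m < j * (R.G + 2) + (R.G + 2) := by omega
    _ = (j + 1) * (R.G + 2) := by ring
    _ ≤ (R.M + 1) * (R.G + 2) := Nat.mul_le_mul_right _ (by omega)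

theorem k4w_F_cap (hR : R.Ok p S η g δ ζc) {j : ℕ} (hj : j ≤ R.M) : (R.F j).Cap R.d' S η (R.f (R.a j)) :=
  k4c_ch_cap R.c hR.chain (R.a j) (by simpa using k4w_a_lt hR hj (Nat.zero_le _))

theorem k4w_F_L (hR : R.Ok p S η g δ ζc) {j : ℕ} (hj : j ≤ R.M) : (R.F j).L = 1 - R.b j := by
  have := k4c_ch_L R.c hR.chain (R.a j) (by simpa using (k4w_a_lt hR hj (Nat.zero_le _)).le)
  rw [this, hR.L_one]
  rfl

/-- **the frames of all windows** (glue) -/
theorem k4w_frs (hFr : K4wHubFr) (hη : 0 < η) (hp : p.Ok) (hpS : p.S = S) (h1 : v = KbVer.one → p.ell = 0) (hτ : 0 < τ) (hτ1 : τ ≤ 1) (hg : g.Fit p η τ)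
    (hζ : 0 < ζc) (hζg : 4 * ζc ≤ g.ζ) (hR : R.Ok p S η g δ ζc) : ∃ fr fri : R.Frs, R.FrsOk p g ζc fr fri := by
  have hS : 0 < S := hpS ▸ hp.S_pos
  have hU : 1 ≤ g.U := by
    have h2 := hg.U_ge
    have h3 : 0 < 1 / τ := by positivity
    linarith
  have heps := hg.eps_pos
  have hu : 0 < g.eps * (g.U + 2) := by positivity
  have hu4 : g.eps * (g.U + 2) ≤ g.eps * (g.U + 4) := by nlinarith
  have key : ∀ j, j ≤ R.M → ∃ fr fri, (R.an j).FrOk p (g.eps * (g.U + 2)) (R.f (R.a j) (R.F j).L 0) ζc fr fri := by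
    intro j hj
    have hlt : R.a j < R.c.len := by simpa using k4w_a_lt hR hj (Nat.zero_le _)
    have hok := k4w_take_ok R.c hR.chain (R.a j)
    have hlen : (R.c.take (R.a j)).len = R.a j := by
      rw [k4w_take_len]
      omega
    have hapos : 0 < (R.c.take (R.a j)).len := by
      rw [hlen]
      unfold K4wRun.a
      omega
    have hlast : (R.c.take (R.a j)).last = R.F j := k4w_take_last _ _
    have hcap : (R.c.take (R.a j)).last.Cap R.d' S η (R.f (R.a j)) := by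
      rw [hlast]
      exact k4w_F_cap hR hj
    have he : R.f (R.a j) (R.F j).L 0 = R.f (R.a j) (R.c.take (R.a j)).last.L 0 := by rw [hlast]
    have hanc : (R.c.take (R.a j)).ancLast = R.an j := k4w_take_anc _ _
    have hL := k4w_F_L hR hj
    have hblo := hR.b_lo j hj
    have hbhi := hR.b_hi j hj
    have hsum : ∑ i ∈ Finset.range (R.c.take (R.a j)).len, R.nar i = R.xb j := by
      rw [hlen]
      rfl
    have main : ∃ fr fri, (R.c.take (R.a j)).ancLast.FrOk p (g.eps * (g.U + 2)) (R.f (R.a j) (R.F j).L 0) ζc fr fri := by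
      by_cases hell : p.ell = 0
      · refine ⟨_, _, k4w_fr_zero S η R.d' _ _ ζc p R.E (R.c.take (R.a j)) R.f R.r R.h R.nar (R.f (R.a j)) hS hη hpS hell hok hapos hcap he hu ?_ hζ.le ?_⟩
        · rw [hlast, hL]
          have := hg.ang
          nlinarith
        · intro hv
          rw [hsum]
          have := abs_le.1 (hR.xb_near hv j hj)
          rw [hell] at this
          linarith [this.2]
      · have hell' : 0 < p.ell := lt_of_le_of_ne hp.ell_nonneg (Ne.symm hell)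
        cases v with
        | one => exact absurd (h1 rfl) hell
        | two =>
          refine hFr S η R.d' _ (p.ell / 16) _ ζc p R.E (R.c.take (R.a j)) R.f R.r R.h R.nar (R.f (R.a j)) hS hη hpS hell' hok hapos hcap he hu ?_ (by positivity) ?_ hζ.le
          · rw [hR.L_one]
            have := hg.ang
            linarith
          · rw [hsum]
            have h2 := abs_le.1 (hR.xb_near rfl j hj)
            have h3 := hg.anc hell'
            have h4 : g.eps ≤ g.eps * (g.U + 4) := by nlinarith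
            have h5 : g.ζ ≤ g.eps * τ / 64 := hg.ζ_le
            have h6 : g.eps * τ ≤ g.eps := by nlinarith
            have h7 : ζc ≤ p.ell / 64 := by linarith
            have h8 : g.eps ≤ 1 := hg.eps_le.trans hτ1
            have h9 : ζc ≤ 1 / 64 := by linarith
            have h10 : p.ell * ζc ≤ p.ell / 64 := by nlinarith
            have h11 : p.ell * (1 / 4 - ζc) ≤ p.ell * R.b j := mul_le_mul_of_nonneg_left hblo hell'.le
            nlinarith [h2.1]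
    rw [hanc] at main
    exact main
  classical
  choose! fr fri hfr using key
  exact ⟨fr, fri, hfr⟩

/-! ## 4. The prunings, for all windows at once -/

/-- the problem after `m` steps is well formed -/
theorem k4w_neg_prob_WF : ∀ {E : KbEx v} (c : K4cCh v E) (k : ℕ) (hc : c.WFat k) (hl : (c.last.P k).WF) (m : ℕ), ((c.prob m).P k).WF
  | _, K4cCh.nil _, _, _, hl, _ => hl
  | _, K4cCh.cons _ _ _ _, _, hc, _, 0 => hc.1.1
  | _, K4cCh.cons _ _ _ t, k, hc, hl, m + 1 => k4w_neg_prob_WF t k hc.2 hl m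

/-- the incidence measure only sees the event -/
theorem k4w_neg_mu_le {P : KbPb v} (hP : P.WF) (γ : P.W) {A B : Set (P.Lam × ℝ)} (h : A ∩ P.Ev γ ⊆ B) : P.mu γ A ≤ P.mu γ B := by
  unfold KbPb.mu
  rw [Measure.restrict_apply' (hP.Ev_meas γ), Measure.restrict_apply' (hP.Ev_meas γ)]
  exact measure_mono fun x hx => ⟨h hx, hx.2⟩

theorem k4w_neg_mass_le {P : KbPb v} (hP : P.WF) {A B : P.W → Set (P.Lam × ℝ)} (h : ∀ γ, A γ ∩ P.Ev γ ⊆ B γ) : P.mass A ≤ P.mass B :=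
  Finset.sum_le_sum fun γ _ => mul_le_mul_right (k4w_neg_mu_le hP γ (h γ)) _

theorem k4w_neg_mass_le_one {P : KbPb v} (hP : P.WF) (A : P.W → Set (P.Lam × ℝ)) : P.mass A ≤ 1 :=
  (k2s_mass_le_tot P A).trans (k2s_tot_le P hP)

/-- **the core of N1, N2**: transfer of a power-small family of incidence sets of `c.prob m` to the deepest problem -/
theorem k4w_neg_core {E : KbEx v} (c : K4cCh v E) {d' S η : ℝ} {f : ℕ → ℝ → ℝ → ℝ} {r h nar : ℕ → ℝ} (hc : c.Ok d' S η f r h nar) (hl : c.last.Ok) (m : ℕ)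
    (U : (c.prob m).Sel) (hU : ∀ᶠ k in uf, ∀ γ, MeasurableSet (U k γ)) (x : ℕ → ℝ) (hx : KbPow (c.prob m).R x) (hUx : ∀ᶠ k in uf, ((c.prob m).P k).mass (U k) ≤ ENNReal.ofReal (x k))
    (T : c.last.Sel) (hT : ∀ᶠ k in uf, ∀ d, ∀ y ∈ T k d, y ∈ (c.last.P k).Ev d → c.incAt m k d y ∈ U k (c.ancAt m k d)) :
    KbPow c.last.R (c.last.massOf T) := by
  obtain ⟨c₀, hc₀, hx⟩ := hx
  obtain ⟨-, ⟨M0, hP⟩, -⟩ := hl
  refine ⟨c₀ / 2, by positivity, ?_⟩
  rw [k4c_ch_R] at hx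
  rw [k4w_last_R]
  filter_upwards [hx, hP, hU, hUx, hT, k4c_ch_wfat c hc, k4w_Zp_lo c hc m (c₀ / 2) (by positivity)] with k a1 a2 a3 a4 a5 a6 a7
  have hN := kb_res_pos E.R k
  have hWF := k4w_neg_prob_WF c k a6 a2.1 m
  have h1 : (c.last.P k).mass (T k) ≤ (c.last.P k).mass (fun d => {y | d ∈ (Set.univ : Set (c.last.P k).W) ∧ c.incAt m k d y ∈ U k (c.ancAt m k d)}) :=
    k4w_neg_mass_le a2.1 fun d y hy => ⟨Set.mem_univ _, a5 d y hy.1 hy.2⟩
  have h2 := k4c_at_mass c k a6 m Set.univ (U k) a3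
  have h3 : ((c.prob m).P k).mass (fun γ => U k γ ∩ c.pthAt m k Set.univ γ) ≤ ((c.prob m).P k).mass (U k) := k2s_mass_mono _ fun γ => Set.inter_subset_left
  have h4 : (c.last.P k).mass (T k) ≤ ENNReal.ofReal (E.R.N k ^ (c₀ / 2)) * ENNReal.ofReal (x k) := by
    calc (c.last.P k).mass (T k) ≤ (c.last.P k).mass (fun d => {y | d ∈ (Set.univ : Set (c.last.P k).W) ∧ c.incAt m k d y ∈ U k (c.ancAt m k d)}) := h1
      _ = (c.last.P k).mass (fun d => {y | d ∈ (Set.univ : Set (c.last.P k).W) ∧ c.incAt m k d y ∈ U k (c.ancAt m k d)}) * 1 := (mul_one _).symm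
      _ ≤ (c.last.P k).mass (fun d => {y | d ∈ (Set.univ : Set (c.last.P k).W) ∧ c.incAt m k d y ∈ U k (c.ancAt m k d)}) * (ENNReal.ofReal (E.R.N k ^ (c₀ / 2)) * c.ZpAt m k) := mul_le_mul_right a7 _
      _ = ENNReal.ofReal (E.R.N k ^ (c₀ / 2)) * ((c.last.P k).mass (fun d => {y | d ∈ (Set.univ : Set (c.last.P k).W) ∧ c.incAt m k d y ∈ U k (c.ancAt m k d)}) * c.ZpAt m k) := by ring
      _ ≤ ENNReal.ofReal (E.R.N k ^ (c₀ / 2)) * ENNReal.ofReal (x k) := by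
        rw [h2]
        exact mul_le_mul_right (h3.trans a4) _
  have h5 : ENNReal.ofReal (E.R.N k ^ (c₀ / 2)) * ENNReal.ofReal (x k) ≤ ENNReal.ofReal (E.R.N k ^ (-(c₀ / 2))) := by
    rw [← ENNReal.ofReal_mul (Real.rpow_nonneg hN.le _)]
    refine ENNReal.ofReal_le_ofReal ?_
    calc E.R.N k ^ (c₀ / 2) * x k ≤ E.R.N k ^ (c₀ / 2) * E.R.N k ^ (-c₀) := mul_le_mul_of_nonneg_left a1 (Real.rpow_nonneg hN.le _)
      _ = E.R.N k ^ (-(c₀ / 2)) := by
        rw [← Real.rpow_add hN]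
        congr 1
        ring
  show ((c.last.P k).mass (T k)).toReal ≤ _
  exact ENNReal.toReal_le_of_le_ofReal (Real.rpow_nonneg hN.le _) (h4.trans h5)

/-- **LEAF L-252-S4W-N1** (~250 l.).  Transfer of a power-small family of LABELS to the deepest problem.
PROOF.  Eventually `c.WFat k` (`k4c_ch_wfat`).   `U γ := ⋃ c', ⋃ (_ : B k c' ∧ wd c' = γ), S c'` (measurable: finite union, `k4c_ch_WF` for `c.drop m`, whose `WFat` is `k4c_all_drop`).   `k4c_at_mass` with `Gd = univ`: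
`last.mass {d, x | incAt d x ∈ U (ancAt d)} * ZpAt = (prob m).mass (U ∩ pthAt) ≤ (prob m).mass U ≤ ∑_{c' bad} om * mC` (`measure_iUnion_le`/`measure_biUnion_finset_le`, reorder the sums over `γ` and `c'`).
For `x ∈ Ev d` and `B k (labAt d)` : `incAt d x ∈ U (ancAt d)` by `k4c_at_lab_S`, `k4c_at_lab_wd`; `mu d` lives on `Ev d`.   Divide by `ZpAt ≥ N^{-τ}` (`k4w_Zp_lo`), `τ = c₀ / 2`;  `toReal` : all masses are `≤ 1`.   `k4c_ch_R`, `k4w_last_R` for the resolutions. -/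
theorem k4w_neg_lab {E : KbEx v} (c : K4cCh v E) {d' S η : ℝ} {f : ℕ → ℝ → ℝ → ℝ} {r h nar : ℕ → ℝ} (hc : c.Ok d' S η f r h nar) (hl : c.last.Ok) (m i : ℕ) (hi : m + i < c.len)
    (B : ∀ k, ((c.drop m).sys i k).C → Prop) (hB : KbPow (c.prob m).R ((c.prob m).chMass ((c.drop m).sys i) B)) :
    KbPow c.last.R (c.last.massOf fun k d => {_x | B k (c.labAt m i k d)}) := by
  classical
  obtain ⟨-, ⟨M0, hP⟩, -⟩ := id hl
  have hlen : i < (c.drop m).len := by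
    rw [k4c_len_drop]
    omega
  have hw : ∀ᶠ k in uf, c.WFat k := k4c_ch_wfat c hc
  refine k4w_neg_core c hc hl m (fun k γ => ⋃ c', ⋃ (_ : B k c' ∧ ((c.drop m).sys i k).wd c' = γ), ((c.drop m).sys i k).S c') ?_ _ hB ?_ _ ?_
  · filter_upwards [hw] with k a1 γ
    have hWF := k4c_ch_WF (c.drop m) k (k4c_all_drop c _ a1 m) i hlen
    exact MeasurableSet.iUnion fun c' => MeasurableSet.iUnion fun _ => hWF.S_meas c'
  · filter_upwards [hw, hP] with k a1 a2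
    have hWF := k4w_neg_prob_WF c k a1 a2.1 m
    have h1 : ((c.prob m).P k).mass (fun γ => ⋃ c', ⋃ (_ : B k c' ∧ ((c.drop m).sys i k).wd c' = γ), ((c.drop m).sys i k).S c')
        ≤ ∑ c', if B k c' then ((c.prob m).P k).om (((c.drop m).sys i k).wd c') * ((c.drop m).sys i k).mC c' else 0 := by
      unfold KbPb.mass
      calc ∑ γ, ((c.prob m).P k).om γ * ((c.prob m).P k).mu γ (⋃ c', ⋃ (_ : B k c' ∧ ((c.drop m).sys i k).wd c' = γ), ((c.drop m).sys i k).S c')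
          ≤ ∑ γ, ((c.prob m).P k).om γ * ∑ c', (if B k c' ∧ ((c.drop m).sys i k).wd c' = γ then ((c.prob m).P k).mu γ (((c.drop m).sys i k).S c') else 0) := by
            refine Finset.sum_le_sum fun γ _ => mul_le_mul_right ?_ _
            refine (measure_iUnion_fintype_le _ _).trans (Finset.sum_le_sum fun c' _ => ?_)
            by_cases hb : B k c' ∧ ((c.drop m).sys i k).wd c' = γ
            · simp [hb]
            · simp [hb]
        _ = ∑ c', ∑ γ, ((c.prob m).P k).om γ * (if B k c' ∧ ((c.drop m).sys i k).wd c' = γ then ((c.prob m).P k).mu γ (((c.drop m).sys i k).S c') else 0) := by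
            simp_rw [Finset.mul_sum]
            exact Finset.sum_comm
        _ = ∑ c', if B k c' then ((c.prob m).P k).om (((c.drop m).sys i k).wd c') * ((c.drop m).sys i k).mC c' else 0 := by
            refine Finset.sum_congr rfl fun c' _ => ?_
            rw [Finset.sum_eq_single (((c.drop m).sys i k).wd c')]
            · by_cases hb : B k c'
              · simp [hb, KbSys.mC]
              · simp [hb]
            · intro γ _ hne
              simp [Ne.symm hne]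
            · intro hh
              exact absurd (Finset.mem_univ _) hh
    have h2 : (∑ c', if B k c' then ((c.prob m).P k).om (((c.drop m).sys i k).wd c') * ((c.drop m).sys i k).mC c' else 0) ≠ ∞ := by
      refine ENNReal.sum_ne_top.2 fun c' _ => ?_
      split_ifs
      · refine ENNReal.mul_ne_top ?_ ?_
        · have h3 : ((c.prob m).P k).om (((c.drop m).sys i k).wd c') ≤ ∑ γ, ((c.prob m).P k).om γ := Finset.single_le_sum (fun _ _ => zero_le) (Finset.mem_univ _)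
          rw [hWF.om_sum] at h3
          exact ne_top_of_le_ne_top ENNReal.one_ne_top h3
        · exact ne_top_of_le_ne_top ENNReal.one_ne_top ((measure_mono (Set.subset_univ _)).trans (k2s_mu_univ _ hWF _))
      · exact ENNReal.zero_ne_top
    refine h1.trans ?_
    unfold KbEx.chMass
    rw [ENNReal.ofReal_toReal h2]
  · filter_upwards [hw] with k a1 d y hy hyE
    have h1 := k4c_at_lab_S c k a1 m i hi d y hyE
    have h2 := k4c_at_lab_wd c k m i d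
    exact Set.mem_iUnion.2 ⟨c.labAt m i k d, Set.mem_iUnion.2 ⟨⟨hy, h2⟩, h1⟩⟩

/-- **LEAF L-252-S4W-N2** (~150 l.).  Transfer of a power-small family of WORLDS of `c.prob m` to the deepest problem.   PROOF.  As N1 with `U γ := {x | B k γ}` (`univ` or `∅`). -/
theorem k4w_neg_anc {E : KbEx v} (c : K4cCh v E) {d' S η : ℝ} {f : ℕ → ℝ → ℝ → ℝ} {r h nar : ℕ → ℝ} (hc : c.Ok d' S η f r h nar) (hl : c.last.Ok) (m : ℕ) (hm : m ≤ c.len)
    (B : ∀ k, ((c.prob m).P k).W → Prop) (hB : KbPow (c.prob m).R ((c.prob m).massOf fun k γ => {_x | B k γ})) :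
    KbPow c.last.R (c.last.massOf fun k d => {_x | B k (c.ancAt m k d)}) := by
  obtain ⟨-, ⟨M0, hP⟩, -⟩ := id hl
  refine k4w_neg_core c hc hl m (fun k γ => {_x | B k γ}) (Eventually.of_forall fun k γ => MeasurableSet.const _) _ hB ?_ _ (Eventually.of_forall fun k d y hy _ => hy)
  filter_upwards [k4c_ch_wfat c hc, hP] with k a1 a2
  have hWF := k4w_neg_prob_WF c k a1 a2.1 m
  show _ ≤ ENNReal.ofReal (((c.prob m).P k).mass _).toReal
  rw [ENNReal.ofReal_toReal (ne_top_of_le_ne_top ENNReal.one_ne_top (k4w_neg_mass_le_one hWF _))]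

theorem k4w_n3_mono (E : KbEx v) (hE : E.Ok) (A B : ∀ k, (E.P k).W → Prop) (h : ∀ k d, A k d → B k d)
    (hB : KbPow E.R (E.massOf fun k d => {_x | B k d})) : KbPow E.R (E.massOf fun k d => {_x | A k d}) := by
  obtain ⟨c, hc, hev⟩ := hB
  obtain ⟨-, ⟨M0, hWF⟩, -⟩ := hE
  refine ⟨c, hc, ?_⟩
  filter_upwards [hev, hWF] with k h1 h2
  refine le_trans ?_ h1
  exact ENNReal.toReal_mono (k2n_s1_mass_ne_top h2.1 _) (k2a_mass_mono fun d x hx => h k d hx)

theorem k4w_n3_or (E : KbEx v) (hE : E.Ok) (A B : ∀ k, (E.P k).W → Prop) (hA : KbPow E.R (E.massOf fun k d => {_x | A k d}))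
    (hB : KbPow E.R (E.massOf fun k d => {_x | B k d})) : KbPow E.R (E.massOf fun k d => {_x | A k d ∨ B k d}) := by
  obtain ⟨c, hc, hev⟩ := kb_pow_add E.R hA hB
  obtain ⟨-, ⟨M0, hWF⟩, -⟩ := hE
  refine ⟨c, hc, ?_⟩
  filter_upwards [hev, hWF] with k h1 h2
  refine le_trans ?_ h1
  show ((E.P k).mass fun d => {_x | A k d ∨ B k d}).toReal ≤ ((E.P k).mass fun d => {_x | A k d}).toReal + ((E.P k).mass fun d => {_x | B k d}).toReal
  rw [← ENNReal.toReal_add (k2n_s1_mass_ne_top h2.1 _) (k2n_s1_mass_ne_top h2.1 _)]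
  refine ENNReal.toReal_mono (ENNReal.add_ne_top.2 ⟨k2n_s1_mass_ne_top h2.1 _, k2n_s1_mass_ne_top h2.1 _⟩) ?_
  unfold KbPb.mass
  rw [← Finset.sum_add_distrib]
  refine Finset.sum_le_sum fun d _ => ?_
  rw [← mul_add]
  refine mul_le_mul' le_rfl ?_
  exact measure_union_le _ _

theorem k4w_n3_ex (E : KbEx v) (hE : E.Ok) (n : ℕ) (A : ℕ → ∀ k, (E.P k).W → Prop) (hA : ∀ i ≤ n, KbPow E.R (E.massOf fun k d => {_x | A i k d})) :
    KbPow E.R (E.massOf fun k d => {_x | ∃ i ≤ n, A i k d}) := by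
  induction n with
  | zero =>
    refine k4w_n3_mono E hE _ _ ?_ (hA 0 le_rfl)
    rintro k d ⟨i, hi, h⟩
    obtain rfl : i = 0 := by omega
    exact h
  | succ n ih =>
    refine k4w_n3_mono E hE _ _ ?_ (k4w_n3_or E hE _ _ (ih fun i hi => hA i (by omega)) (hA (n + 1) le_rfl))
    rintro k d ⟨i, hi, h⟩
    rcases Nat.lt_or_ge i (n + 1) with h' | h'
    · exact Or.inl ⟨i, by omega, h⟩
    · obtain rfl : i = n + 1 := by omega
      exact Or.inr h

/-- **LEAF L-252-S4W-N3** (~300 l.).  The bad deepest worlds have power-small mass at every fixed tolerance.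
PROOF.  `R.bad .. α k = ⋃_{j ≤ M} (⋃_{m ≤ G} A j m ∪ ⋃_{m ≤ G} A' j m ∪ A'' j)`: finitely many sets; mass of a finite union `≤` sum (`kb_pow_add`, induction over `Finset.range`; `massOf` of a union: `measure_union_le`, `ENNReal.toReal_add_le`/finite masses).
`A j m` : `kb_axis (R.F j) .. (k4w_F_cap ..) (R.nd j m) ..` (atlas: `k4c_ch_sys`, `k4c_ch_known` for `R.ch j`, `k4w_drop_ok`, `k4c_len_drop`) + `k4w_neg_lab`;   `A' j m` : `(hfr j hj).major` (depth `0 < dp < L` : `k4c_ch_dp_lt`) + `k4w_neg_lab`;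
`A'' j` : `(hfr j hj).lip α` + `k4w_neg_anc`. -/
theorem k4w_bad_neg (hη : 0 < η) (hp : p.Ok) (hpS : p.S = S) (hR : R.Ok p S η g δ ζc) {fr fri : R.Frs} (hfr : R.FrsOk p g κ fr fri) (α : ℝ) (hα : 0 < α) :
    KbPow R.c.last.R (R.c.last.massOf fun k d => {_x | d ∈ R.bad p κ fr α k}) := by
  have hl := hR.last.ok
  have hS : 0 < S := hpS ▸ hp.S_pos
  refine k4w_n3_ex R.c.last hl R.M (fun j k d =>
    (∃ m ≤ R.G, kbMn ((R.nd j m k).ch (R.lb j m k d)).D ≤ (R.F j).R.N k ^ (-α) * (R.nd j m k).q) ∨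
    (0 < p.ell ∧ ∃ m ≤ R.G, k4wRow (fr j k ((R.nd j m k).wd (R.lb j m k d)) * ((R.nd j m k).ch (R.lb j m k d)).D) ≤ (R.F j).R.N k ^ (-α) * (R.nd j m k).q) ∨
    R.pa j k d ∈ (R.an j).lipBad p (fr j) ((R.F j).R.N k ^ (κ + α)) k) fun j hj => ?_
  have hok := k4w_drop_ok R.c hR.chain (R.a j)
  have hlen : ∀ m ≤ R.G, m < (R.ch j).len := by
    intro m hm
    rw [k4c_len_drop]
    have := k4w_a_lt hR hj hm
    omega
  have hatl : ∀ m, (hm : m ≤ R.G) → (R.F j).IsAtlas (R.nd j m) ((R.ch j).dp m) (∑ i ∈ Finset.range (m + 1), R.h (i + R.a j)) := fun m hm =>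
    ⟨k4c_ch_sys (R.ch j) hok m (hlen m hm), k4c_ch_known (R.ch j) hok m (hlen m hm)⟩
  have h1 : KbPow R.c.last.R (R.c.last.massOf fun k d => {_x | ∃ m ≤ R.G, kbMn ((R.nd j m k).ch (R.lb j m k d)).D ≤ (R.F j).R.N k ^ (-α) * (R.nd j m k).q}) := by
    refine k4w_n3_ex R.c.last hl R.G (fun m k d => kbMn ((R.nd j m k).ch (R.lb j m k d)).D ≤ (R.F j).R.N k ^ (-α) * (R.nd j m k).q) fun m hm => ?_
    exact k4w_neg_lab R.c hR.chain hl (R.a j) m (k4w_a_lt hR hj hm) (fun k c => kbMn ((R.nd j m k).ch c).D ≤ (R.F j).R.N k ^ (-α) * (R.nd j m k).q)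
      (kb_axis (R.F j) R.d' S η hS hη (R.f (R.a j)) (k4w_F_cap hR hj) (R.nd j m) _ _ (hatl m hm) α hα)
  have h3 : KbPow R.c.last.R (R.c.last.massOf fun k d => {_x | R.pa j k d ∈ (R.an j).lipBad p (fr j) ((R.F j).R.N k ^ (κ + α)) k}) :=
    k4w_neg_anc R.c hR.chain hl (R.a j) (by simpa using (k4w_a_lt hR hj (Nat.zero_le _)).le) (fun k γ => γ ∈ (R.an j).lipBad p (fr j) ((R.F j).R.N k ^ (κ + α)) k)
      ((hfr j hj).lip α hα)
  have h2 : KbPow R.c.last.R (R.c.last.massOf fun k d => {_x | 0 < p.ell ∧ ∃ m ≤ R.G,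
      k4wRow (fr j k ((R.nd j m k).wd (R.lb j m k d)) * ((R.nd j m k).ch (R.lb j m k d)).D) ≤ (R.F j).R.N k ^ (-α) * (R.nd j m k).q}) := by
    by_cases hell : 0 < p.ell
    · refine k4w_n3_mono R.c.last hl _ _ (fun k d h => h.2) ?_
      refine k4w_n3_ex R.c.last hl R.G (fun m k d => k4wRow (fr j k ((R.nd j m k).wd (R.lb j m k d)) * ((R.nd j m k).ch (R.lb j m k d)).D) ≤ (R.F j).R.N k ^ (-α) * (R.nd j m k).q)
        fun m hm => ?_
      have hdp := k4c_ch_dp_lt (R.ch j) hok m (hlen m hm)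
      exact k4w_neg_lab R.c hR.chain hl (R.a j) m (k4w_a_lt hR hj hm)
        (fun k c => k4wRow (fr j k ((R.nd j m k).wd c) * ((R.nd j m k).ch c).D) ≤ (R.F j).R.N k ^ (-α) * (R.nd j m k).q)
        ((hfr j hj).major hell (R.nd j m) _ _ hdp.1.le hdp.2 (hatl m hm) α hα)
    · exact k4w_n3_mono R.c.last hl _ _ (fun k d h => absurd h.1 hell) h3
  exact k4w_n3_or R.c.last hl _ _ h1 (k4w_n3_or R.c.last hl _ _ h2 h3)

theorem k4w_n4_mn_nonneg {m : ℕ} (D : Matrix (Fin m) (Fin m) ℝ) : 0 ≤ kbMn D :=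
  Finset.sum_nonneg fun _ _ => Finset.sum_nonneg fun _ _ => abs_nonneg _

theorem k4w_n4_row_nonneg (D : Matrix (Fin v.j) (Fin v.j) ℝ) : 0 ≤ k4wRow D := by
  unfold k4wRow
  refine Finset.sum_nonneg fun i _ => Finset.sum_nonneg fun l _ => ?_
  split_ifs
  · exact abs_nonneg _
  · exact le_rfl

/-- a test `x ≤ N^{-α} q` with `0 ≤ x` is monotone in the tolerance -/
theorem k4w_n4_test {N x q α α' : ℝ} (hN : 1 ≤ N) (hx : 0 ≤ x) (hα : α' ≤ α) (h : x ≤ N ^ (-α) * q) : x ≤ N ^ (-α') * q := by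
  have h1 : 0 < N ^ (-α) := Real.rpow_pos_of_pos (by linarith) _
  have h2 : N ^ (-α) ≤ N ^ (-α') := Real.rpow_le_rpow_of_exponent_le hN (by linarith)
  have hq : 0 ≤ q := by
    by_contra hq
    have hq' : q < 0 := not_le.1 hq
    nlinarith
  exact h.trans (mul_le_mul_of_nonneg_right h2 hq)

theorem k4w_n4_bad_mono (R : K4wRun v) (p : KpPrm) (κ : ℝ) (fr : R.Frs) {α α' : ℝ} (hα : α' ≤ α) (k : ℕ) : R.bad p κ fr α k ⊆ R.bad p κ fr α' k := by
  rintro d ⟨j, hj, h⟩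
  have hN : 1 ≤ (R.F j).R.N k := kb_res_one_le _ k
  refine ⟨j, hj, ?_⟩
  rcases h with ⟨m, hm, h⟩ | ⟨hl, m, hm, h⟩ | h
  · exact Or.inl ⟨m, hm, k4w_n4_test hN (k4w_n4_mn_nonneg _) hα h⟩
  · exact Or.inr (Or.inl ⟨hl, m, hm, k4w_n4_test hN (k4w_n4_row_nonneg _) hα h⟩)
  · refine Or.inr (Or.inr ?_)
    obtain ⟨l, hl, l', hl', h⟩ := h
    refine ⟨l, hl, l', hl', lt_of_le_of_lt (mul_le_mul_of_nonneg_right ?_ (norm_nonneg _)) h⟩
    exact Real.rpow_le_rpow_of_exponent_le hN (by linarith)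

/-- the mass splits along a set of worlds -/
theorem k4w_n4_split (P : KbPb v) (B : Set P.W) : P.tot = P.mass (fun d => {_x | d ∈ B}) + P.mass fun d => {_x | d ∈ Bᶜ} := by
  unfold KbPb.tot KbPb.mass
  rw [← Finset.sum_add_distrib]
  refine Finset.sum_congr rfl fun d _ => ?_
  beta_reduce
  by_cases hd : d ∈ B
  · have h1 : {_x : P.Lam × ℝ | d ∈ B} = Set.univ := by
      ext; simp [hd]
    have h2 : {_x : P.Lam × ℝ | d ∈ Bᶜ} = ∅ := by
      ext; simp [hd]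
    rw [h1, h2, measure_empty, mul_zero, add_zero]
  · have h1 : {_x : P.Lam × ℝ | d ∈ B} = ∅ := by
      ext; simp [hd]
    have h2 : {_x : P.Lam × ℝ | d ∈ Bᶜ} = Set.univ := by
      ext; simp [hd]
    rw [h1, h2, measure_empty, mul_zero, zero_add]

/-- good deepest worlds: they avoid the bad sets at every fixed tolerance, eventually, and keep half of the mass -/
structure K4wRun.GdOk (R : K4wRun v) (p : KpPrm) (κ : ℝ) (fr : R.Frs) (Gd : R.Gds) : Prop where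
  good : ∀ α : ℝ, 0 < α → ∀ᶠ k in uf, ∀ d ∈ Gd k, d ∉ R.bad p κ fr α k
  big : ∀ᶠ k in uf, (R.c.last.P k).tot ≤ 2 * (R.c.last.P k).mass fun d => {_x | d ∈ Gd k}

/-- **LEAF L-252-S4W-N4** (~200 l.).  The slow tolerance.
PROOF.  `kb_slow R.c.last.R (fun k α => 2 * mass (bad α k) ≤ tot)` : for fixed `α`, `mass (bad) ≤ N^{-c₀}` (`k4w_bad_neg`; `ENNReal.ofReal_toReal`, finite mass) and `1 ≤ ofReal (N^{c₀/2}) * tot` (`hR.last.ok.2.2`, field `mass` of `Ntv`), `2 ≤ N^{c₀/2}` eventually.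
`Gd k := (R.bad p κ fr (α k) k)ᶜ`.   `big` : `tot = mass (bad) + mass (Gd)` (per world the set is `univ` or `∅`), `tot < ∞`.
`good` : eventually `α k ≤ α`, and `R.bad .. α k ⊆ R.bad .. (α k) k` (all three tests are monotone: `N^{-α} ≤ N^{-α k}`, `N^{κ + α k} ≤ N^{κ + α}`, `Real.rpow_le_rpow_of_exponent_le`, `kb_res_one_le`). -/
theorem k4w_gd_ex (hη : 0 < η) (hp : p.Ok) (hpS : p.S = S) (hR : R.Ok p S η g δ ζc) {fr fri : R.Frs} (hfr : R.FrsOk p g κ fr fri) : ∃ Gd : R.Gds, R.GdOk p κ fr Gd := by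
  have hok := hR.last.ok
  obtain ⟨-, ⟨M0, hWF⟩, hNtv⟩ := hok
  have key : ∀ α : ℝ, 0 < α → ∀ᶠ k in uf, 2 * (R.c.last.P k).mass (fun d => {_x | d ∈ R.bad p κ fr α k}) ≤ (R.c.last.P k).tot := by
    intro α hα
    obtain ⟨c0, hc0, hev⟩ := k4w_bad_neg hη hp hpS hR hfr α hα
    filter_upwards [hev, hWF, hNtv (c0 / 2) (by positivity), (kb_rpow_tendsto R.c.last.R (show 0 < c0 / 2 by positivity)).eventually_ge_atTop 2] with k h1 h2 h3 h4
    have hN0 := kb_res_pos R.c.last.R k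
    have hfin := k2n_s1_mass_ne_top h2.1 (fun d => {_x | d ∈ R.bad p κ fr α k})
    have h5 : (R.c.last.P k).mass (fun d => {_x | d ∈ R.bad p κ fr α k}) ≤ ENNReal.ofReal (R.c.last.R.N k ^ (-c0)) :=
      (ENNReal.le_ofReal_iff_toReal_le hfin (Real.rpow_nonneg hN0.le _)).2 h1
    have h6 := h3.mass
    calc 2 * (R.c.last.P k).mass (fun d => {_x | d ∈ R.bad p κ fr α k}) ≤ ENNReal.ofReal (R.c.last.R.N k ^ (c0 / 2)) * ENNReal.ofReal (R.c.last.R.N k ^ (-c0)) := by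
          refine mul_le_mul' ?_ h5
          rw [← ENNReal.ofReal_ofNat]
          exact ENNReal.ofReal_le_ofReal h4
      _ = ENNReal.ofReal (R.c.last.R.N k ^ (-(c0 / 2))) * 1 := by
          rw [← ENNReal.ofReal_mul (Real.rpow_nonneg hN0.le _), ← Real.rpow_add hN0, mul_one]
          congr 2
          ring
      _ ≤ ENNReal.ofReal (R.c.last.R.N k ^ (-(c0 / 2))) * (ENNReal.ofReal (R.c.last.R.N k ^ (c0 / 2)) * (R.c.last.P k).tot) := mul_le_mul' le_rfl h6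
      _ = (R.c.last.P k).tot := by
          rw [← mul_assoc, ← ENNReal.ofReal_mul (Real.rpow_nonneg hN0.le _), ← Real.rpow_add hN0]
          simp
  obtain ⟨α, hα0, hαt, -, hαp⟩ := kb_slow R.c.last.R (fun k α => 2 * (R.c.last.P k).mass (fun d => {_x | d ∈ R.bad p κ fr α k}) ≤ (R.c.last.P k).tot) key
  refine ⟨fun k => (R.bad p κ fr (α k) k)ᶜ, ⟨fun α' hα' => ?_, ?_⟩⟩
  · filter_upwards [hαt.eventually (eventually_le_nhds hα')] with k hk d hd hd'
    exact hd (k4w_n4_bad_mono R p κ fr hk k hd')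
  · filter_upwards [hαp, hWF] with k h1 h2
    have hfin := k2n_s1_mass_ne_top h2.1 (fun d => {_x | d ∈ R.bad p κ fr (α k) k})
    have h3 := k4w_n4_split (R.c.last.P k) (R.bad p κ fr (α k) k)
    set A := (R.c.last.P k).mass (fun d => {_x | d ∈ R.bad p κ fr (α k) k}) with hA
    set B := (R.c.last.P k).mass (fun d => {_x | d ∈ (R.bad p κ fr (α k) k)ᶜ}) with hB
    have h4 : A + A ≤ A + B := by
      rw [← two_mul, ← h3]
      exact h1
    have h5 : A ≤ B := (ENNReal.add_le_add_iff_left hfin).1 h4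
    rw [h3, two_mul]
    exact add_le_add h5 le_rfl

/-! ## 5. The fields of `KpWin.Ok` for every window -/

variable {fr fri : R.Frs} {Gd : R.Gds} {j : ℕ}

/-- **LEAF L-252-S4W-F1** (~200 l.).  The reference path is dense.
PROOF.  Measurability: `k4c_at_pth_meas` under `k4c_ch_wfat`.   Mass: `k4c_at_mass` with `U = univ` : `last.mass {d ∈ Gd} * ZpAt = (F j).mass (univ ∩ pthAt)`;  `hGd.big`, `Ntv.mass` of `R.c.last` (`hR.last.ok`), `k4w_Zp_lo`, each with `τ / 3`; `2 ≤ N^{τ/3}` eventually. -/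
theorem k4w_dense (hR : R.Ok p S η g δ ζc) (hGd : R.GdOk p κ fr Gd) (hj : j ≤ R.M) : (R.F j).Dense fun k => R.c.pthAt (R.a j) k (Gd k) := by
  have hwf := k4c_ch_wfat R.c hR.chain
  refine ⟨?_, fun τ hτ => ?_⟩
  · filter_upwards [hwf] with k hk γ
    exact k4c_at_pth_meas R.c k hk (R.a j) (Gd k) γ
  have hRF : (R.F j).R = R.E.R := k4c_ch_R R.c (R.a j)
  have hRl : R.c.last.R = R.E.R := k4w_last_R R.c
  have hτ3 : 0 < τ / 3 := by positivity
  have hN := hR.last.ok.2.2 (τ / 3) hτ3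
  rw [hRl] at hN
  rw [hRF]
  filter_upwards [hwf, hGd.big, hN, k4w_Zp_lo R.c hR.chain (R.a j) (τ / 3) hτ3, (kb_rpow_tendsto R.E.R hτ3).eventually_ge_atTop 2] with k h1 h2 h3 h4 h5
  have hN0 := kb_res_pos R.E.R k
  have hm := k4c_at_mass R.c k h1 (R.a j) (Gd k) (fun _ => Set.univ) (fun _ => MeasurableSet.univ)
  have e1 : (fun d => {x : (R.c.last.P k).Lam × ℝ | d ∈ Gd k ∧ R.c.incAt (R.a j) k d x ∈ (Set.univ : Set (((R.c.prob (R.a j)).P k).Lam × ℝ))}) = fun d => {_x | d ∈ Gd k} := by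
    funext d
    ext x
    simp
  have e2 : (fun γ => (Set.univ : Set (((R.c.prob (R.a j)).P k).Lam × ℝ)) ∩ R.c.pthAt (R.a j) k (Gd k) γ) = R.c.pthAt (R.a j) k (Gd k) := by
    funext γ
    exact Set.univ_inter _
  rw [e1, e2] at hm
  show 1 ≤ ENNReal.ofReal (R.E.R.N k ^ τ) * ((R.c.prob (R.a j)).P k).mass (R.c.pthAt (R.a j) k (Gd k))
  rw [← hm]
  set a := ENNReal.ofReal (R.E.R.N k ^ (τ / 3)) with ha
  have h2a : (2 : ℝ≥0∞) ≤ a := by
    rw [ha, ← ENNReal.ofReal_ofNat]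
    exact ENNReal.ofReal_le_ofReal h5
  have haaa : ENNReal.ofReal (R.E.R.N k ^ τ) = a * a * a := by
    rw [ha, ← ENNReal.ofReal_mul (Real.rpow_nonneg hN0.le _), ← ENNReal.ofReal_mul (by positivity), ← Real.rpow_add hN0, ← Real.rpow_add hN0]
    congr 2
    ring
  rw [haaa]
  set mG := (R.c.last.P k).mass (fun d => {_x | d ∈ Gd k}) with hmG
  set Z := R.c.ZpAt (R.a j) k with hZ
  calc (1 : ℝ≥0∞) = 1 * 1 := (one_mul 1).symm
    _ ≤ (a * (R.c.last.P k).tot) * (a * Z) := mul_le_mul' h3.mass h4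
    _ ≤ (a * (a * mG)) * (a * Z) := by
        refine mul_le_mul' (mul_le_mul' le_rfl (h2.trans (mul_le_mul' h2a le_rfl))) le_rfl
    _ = a * a * a * (mG * Z) := by ring

/-- **LEAF L-252-S4W-F2** (~150 l.).  The path has a KEPT label at every node.
PROOF.  Under `WFat` : `x ∈ pthAt` lies in `(R.nd j m k).sel γ ⊆ Ev γ` (`k4c_at_pth_sub`, `WF.S_sub`);  `k4w_pth_lab` gives `d ∈ Gd k`, `y ∈ Ev d` with `ancAt d = γ`, `incAt d y = x`;  `k4c_at_lab_S`, `k4c_at_lab_wd`: `x ∈ S (lb d)`, `wd (lb d) = γ`; the label `⟨lb d, d, hd, rfl⟩`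
of the restriction does it (`KbSys.sel`, `KbSys.restr`, `Set.mem_iUnion`, `Set.inter_univ`). -/
theorem k4w_pth (hR : R.Ok p S η g δ ζc) (hj : j ≤ R.M) :
    ∀ᶠ k in uf, ∀ m ≤ R.G, ∀ γ, R.c.pthAt (R.a j) k (Gd k) γ ⊆ ((R.win g Gd j (fr j) (fri j)).Q k m).sel γ := by
  filter_upwards [k4c_ch_wfat R.c hR.chain] with k hk m hm γ x hx
  have hlt := k4w_a_lt hR hj hm
  have h1 : x ∈ ((R.c.drop (R.a j)).sys m k).sel γ := k4c_at_pth_sub R.c k hk (R.a j) m hlt (Gd k) γ hx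
  have hwf : ((R.c.drop (R.a j)).sys m k).WF := k4c_ch_WF (R.c.drop (R.a j)) k (k4w_drop_wfat R.c k hk _) m (by rw [k4c_len_drop]; omega)
  have hEv : x ∈ ((R.c.prob (R.a j)).P k).Ev γ := by
    simp only [KbSys.sel, Set.mem_iUnion] at h1
    obtain ⟨c', hw, hxc⟩ := h1
    rw [← hw]
    exact (hwf.S_sub c' hxc).1
  obtain ⟨d, hd, y, hy, e1, e2⟩ := k4w_pth_lab R.c k hk (R.a j) (Gd k) γ x hx hEv
  have h3 := k4c_at_lab_S R.c k hk (R.a j) m hlt d y hy
  have h4 := k4c_at_lab_wd R.c k (R.a j) m d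
  rw [e2] at h3
  rw [e1] at h4
  show x ∈ ((R.nd j m k).restr (R.keep Gd j k m) fun _ => Set.univ).sel γ
  simp only [KbSys.sel, Set.mem_iUnion]
  exact ⟨⟨R.lb j m k d, d, hd, rfl⟩, h4, h3, Set.mem_univ _⟩

/-- the mass of the union of the selections is at most the mass of the system -/
theorem k4w_sel_mass_le {P : KbPb v} (Y : KbSys P) : P.mass Y.sel ≤ Y.mass := by
  classical
  unfold KbPb.mass KbSys.mass KbSys.mC
  calc ∑ γ, P.om γ * P.mu γ (Y.sel γ) ≤ ∑ γ, P.om γ * ∑ c, (if Y.wd c = γ then P.mu γ (Y.S c) else 0) := by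
        refine Finset.sum_le_sum fun γ _ => mul_le_mul' le_rfl ?_
        have e : Y.sel γ = ⋃ c ∈ Finset.univ.filter (fun c => Y.wd c = γ), Y.S c := by
          ext x
          simp [KbSys.sel]
        rw [e, ← Finset.sum_filter]
        exact measure_biUnion_finset_le _ _
    _ = ∑ γ, ∑ c, (if Y.wd c = γ then P.om (Y.wd c) * P.mu (Y.wd c) (Y.S c) else 0) := by
        refine Finset.sum_congr rfl fun γ _ => ?_
        rw [Finset.mul_sum]
        refine Finset.sum_congr rfl fun c _ => ?_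
        by_cases h : Y.wd c = γ
        · rw [if_pos h, if_pos h, h]
        · rw [if_neg h, if_neg h, mul_zero]
    _ = ∑ c, P.om (Y.wd c) * P.mu (Y.wd c) (Y.S c) := by
        rw [Finset.sum_comm]
        refine Finset.sum_congr rfl fun c _ => ?_
        rw [Finset.sum_ite_eq]
        simp

/-- **LEAF L-252-S4W-F3** (~250 l.).  The restricted nodes are known atlases, saturated, of homogeneous narrowness.
PROOF.  For `R.ch j` : `k4w_drop_ok`, `k4c_len_drop`, `k4w_a_lt`;  `k4c_ch_sys`, `k4c_ch_dp`, `k4c_ch_known`, `k4c_ch_sat`, `k4c_ch_narrow` give the statements for `R.nd j m` with `dp = R.ρ j m`, cost `R.hh j m`, narrowness `R.xx j m`, saturation `f (0 + a j) (dp) 0`.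
Restriction: `k2n_restr_sys` (Big: `mass (restr) ≥ (F j).mass (pthAt)` by `k4w_pth` + `measure_iUnion_le`, then `k4w_dense`), `k2n_hub_restr_keep`; `Narrow` = `ChExp`, a statement on every label. -/
theorem k4w_nodes (hR : R.Ok p S η g δ ζc) (hGd : R.GdOk p κ fr Gd) (hj : j ≤ R.M) (m : ℕ) (hm : m ≤ R.G) :
    (R.F j).IsAtlas ((R.win g Gd j (fr j) (fri j)).nd m) (R.ρ j m) (R.hh j m) ∧ (R.F j).IsSat ((R.win g Gd j (fr j) (fri j)).nd m) (R.f (R.a j) (R.ρ j m) 0) ∧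
      (v = KbVer.two → (R.F j).Narrow ((R.win g Gd j (fr j) (fri j)).nd m) (R.xx j m)) := by
  have hok := k4w_drop_ok R.c hR.chain (R.a j)
  have hlen : m < (R.ch j).len := by
    rw [k4c_len_drop]
    have := k4w_a_lt hR hj hm
    omega
  have hdp : (R.ch j).dp m = R.ρ j m := k4c_ch_dp (R.ch j) hok m hlen
  have hsys : (R.F j).IsSys (R.nd j m) (R.ρ j m) (R.hh j m) := by
    have := k4c_ch_sys (R.ch j) hok m hlen
    rw [hdp] at this
    exact this
  have hkn : (R.F j).IsKnown (R.nd j m) (R.F j).L := k4c_ch_known (R.ch j) hok m hlen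
  have hsat : (R.F j).IsSat (R.nd j m) (R.f (R.a j) (R.ρ j m) 0) := by
    have := k4c_ch_sat (R.ch j) hok m hlen
    rw [hdp] at this
    simpa using this
  have e : (R.win g Gd j (fr j) (fri j)).nd m = (R.F j).restr (R.nd j m) (fun k => R.keep Gd j k m) fun _ _ => Set.univ := rfl
  have hkeep := k2n_hub_restr_keep (R.F j) (R.nd j m) (fun k => R.keep Gd j k m) (R.f (R.a j) (R.ρ j m) 0) (R.F j).L
  rw [e]
  refine ⟨⟨k2n_restr_sys (R.F j) (R.nd j m) _ _ hsys _ _ (Eventually.of_forall fun _ _ => MeasurableSet.univ) fun τ' hτ' => ?_, hkeep.2.2 hkn⟩, hkeep.2.1 hsat, fun hv => ?_⟩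
  · filter_upwards [(k4w_dense hR hGd hj).2 τ' hτ', k4w_pth (g := g) (fr := fr) (fri := fri) (Gd := Gd) hR hj] with k h1 h2
    refine h1.trans (mul_le_mul' le_rfl ?_)
    refine le_trans ?_ (k4w_sel_mass_le _)
    exact Finset.sum_le_sum fun γ _ => mul_le_mul' le_rfl (measure_mono (h2 m hm γ))
  · have := k4c_ch_narrow (R.ch j) hv hok m hlen
    intro τ' hτ'
    filter_upwards [this τ' hτ'] with k hk c
    exact hk c.1

/-- **LEAF L-252-S4W-F4** (~120 l.).  Nesting.   PROOF.  `k4c_ch_nest` for `R.ch j` (`WFat` by `k4c_all_drop`, `m + 1 < len` by `k4w_a_lt`, `k4c_len_drop`), `K4cCh.wd_up`; `restr` : `rfl` on `wd, I, A`, `S c ∩ univ`. -/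
theorem k4w_nest (hR : R.Ok p S η g δ ζc) (hj : j ≤ R.M) :
    ∀ᶠ k in uf, ∀ m < R.G, ∀ c, ((R.win g Gd j (fr j) (fri j)).Q k (m + 1)).I c ⊆ ((R.win g Gd j (fr j) (fri j)).Q k m).I ((R.win g Gd j (fr j) (fri j)).up k m c) ∧
      ((R.win g Gd j (fr j) (fri j)).Q k (m + 1)).A c ⊆ ((R.win g Gd j (fr j) (fri j)).Q k m).A ((R.win g Gd j (fr j) (fri j)).up k m c) ∧
      ((R.win g Gd j (fr j) (fri j)).Q k (m + 1)).S c ⊆ ((R.win g Gd j (fr j) (fri j)).Q k m).S ((R.win g Gd j (fr j) (fri j)).up k m c) := by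
  filter_upwards [k4c_ch_wfat (R.ch j) (k4w_drop_ok R.c hR.chain (R.a j))] with k hk m hm c
  have hlen : m + 1 < (R.ch j).len := by
    rw [k4c_len_drop]
    have := k4w_a_lt hR hj (show m + 1 ≤ R.G by omega)
    omega
  obtain ⟨h1, h2, h3⟩ := k4c_ch_nest (R.ch j) k hk m hlen c.1
  refine ⟨h1, h2, ?_⟩
  intro x hx
  exact ⟨h3 hx.1, Set.mem_univ _⟩

theorem k4w_wd_up (k m : ℕ) (c : ((R.win g Gd j (fr j) (fri j)).Q k (m + 1)).C) :
    ((R.win g Gd j (fr j) (fri j)).Q k m).wd ((R.win g Gd j (fr j) (fri j)).up k m c) = ((R.win g Gd j (fr j) (fri j)).Q k (m + 1)).wd c :=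
  (R.ch j).wd_up k m c.1

/-- **LEAF L-252-S4W-F5** (~120 l.).  Fullness of the kept labels.   PROOF.  A kept label is `R.lb j m k d`, `d ∈ Gd k`; `hGd.good τ` : `d ∉ R.bad .. τ k`, i.e. (`not_exists`, `not_or`, `not_le`) `N^{-τ} q < kbMn D`, resp. `< k4wRow (fr * D)`; multiply by `N^τ` (`Real.rpow_neg`). -/
theorem k4w_full (hGd : R.GdOk p κ fr Gd) (hj : j ≤ R.M) (τ' : ℝ) (hτ' : 0 < τ') :
    ∀ᶠ k in uf, ∀ m ≤ R.G, ∀ c, ((R.win g Gd j (fr j) (fri j)).Q k m).q ≤ (R.F j).R.N k ^ τ' * kbMn (((R.win g Gd j (fr j) (fri j)).Q k m).ch c).D ∧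
      (0 < p.ell → ((R.win g Gd j (fr j) (fri j)).Q k m).q
        ≤ (R.F j).R.N k ^ τ' * k4wRow (fr j k (((R.win g Gd j (fr j) (fri j)).Q k m).wd c) * (((R.win g Gd j (fr j) (fri j)).Q k m).ch c).D)) := by
  filter_upwards [hGd.good τ' hτ'] with k hk m hm c
  obtain ⟨d, hd, hc⟩ := c.2
  have hb := hk d hd
  have hN : 0 < (R.F j).R.N k := kb_res_pos _ k
  have hNt : 0 < (R.F j).R.N k ^ τ' := Real.rpow_pos_of_pos hN _
  have key : ∀ x y : ℝ, ¬ (x ≤ (R.F j).R.N k ^ (-τ') * y) → y ≤ (R.F j).R.N k ^ τ' * x := by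
    intro x y h
    rw [not_le, Real.rpow_neg hN.le] at h
    have h2 := mul_lt_mul_of_pos_left h hNt
    rw [← mul_assoc, mul_inv_cancel₀ hNt.ne', one_mul] at h2
    exact h2.le
  constructor
  · apply key
    intro h
    apply hb
    refine ⟨j, hj, Or.inl ⟨m, hm, ?_⟩⟩
    rw [hc]
    exact h
  · intro hell
    apply key
    intro h
    apply hb
    refine ⟨j, hj, Or.inr (Or.inl ⟨hell, m, hm, ?_⟩)⟩
    rw [hc]
    exact h

/-- **LEAF L-252-S4W-F6** (~150 l.).  Range of the finest bins.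
PROOF.  `x ∈ pthAt ⊆ Ev γ ⊆ Sp γ × [0,1]` (`k4c_at_pth_sub` at the node `0`, `WF.S_sub`, `KbPb.WF.Ev_sub`), `Ntv.base` : `‖V‖ ≤ N^{τ'}`;  `(hfr j hj).bd τ'`, `k4c_mulVec_le` : `‖fr V‖ ≤ N^{2τ'}`;  `|kpPv p y i| ≤ ‖y‖`;
`kbBin b y = ⌊y / kbDy b⌋`, `b ≤ kbDy b` (`k4c_dy_bounds`), `b = N^{-eps U}` : `|bin| ≤ N^{2τ' + eps U} + 1 ≤ N^{eps (U + 1)}` for `τ' = eps / 4` eventually;  `Nat.le_ceil`, `Int.abs_le..`/`Int.floor` bounds. -/
theorem k4w_rng (hτ : 0 < τ) (hg : g.Fit p η τ) (hR : R.Ok p S η g δ ζc) (hfr : R.FrsOk p g κ fr fri) (hj : j ≤ R.M) :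
    ∀ᶠ k in uf, ∀ γ, ∀ x ∈ R.c.pthAt (R.a j) k (Gd k) γ, ∀ i, |(R.win g Gd j (fr j) (fri j)).vb p g k γ x i| ≤ ((R.win g Gd j (fr j) (fri j)).Mb k : ℤ) := by
  have heps := hg.eps_pos
  have hcap := k4w_F_cap hR hj
  obtain ⟨M0, hWF⟩ := hcap.ok.2.1
  filter_upwards [k4c_ch_wfat R.c hR.chain, k4c_ch_wfat (R.ch j) (k4w_drop_ok R.c hR.chain (R.a j)), hWF, hcap.ok.2.2 (g.eps / 2) (by positivity),
    (hfr j hj).bd (g.eps / 2) (by positivity)] with k h1 h2 h3 h4 h5 γ x hx i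
  have hlt := k4w_a_lt hR hj (Nat.zero_le R.G)
  have hlen : 0 < (R.ch j).len := by
    rw [k4c_len_drop]
    omega
  have hsel := k4c_at_pth_sub R.c k h1 (R.a j) 0 hlt (Gd k) γ hx
  have hW := k4c_ch_WF (R.ch j) k h2 0 hlen
  obtain ⟨c, hc⟩ := Set.mem_iUnion.1 hsel
  obtain ⟨hwd, hxS⟩ := Set.mem_iUnion.1 hc
  have hEv : x ∈ ((R.F j).P k).Ev γ := by
    have := (hW.S_sub c hxS).1
    rwa [hwd] at this
  have hSp := h3.1.Ev_sub γ hEv
  have hbase := h4.base γ x.1 hSp.1 x.2 hSp.2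
  set N : ℝ := (R.F j).R.N k with hNdef
  have hN : 0 < N := kb_res_pos _ k
  have hV : ‖kbV (((R.F j).P k).co γ x.1)‖ ≤ N ^ (g.eps / 2) := by
    have := norm_nonneg (kbY (((R.F j).P k).co γ x.1) x.2)
    linarith
  have hfrb : kbMn (fr j k γ) ≤ N ^ (g.eps / 2) := (h5 γ).1
  have hmn : 0 ≤ kbMn (fr j k γ) := Finset.sum_nonneg fun _ _ => Finset.sum_nonneg fun _ _ => abs_nonneg _
  set y : KbB v := (fr j k γ).mulVec (kbV (((R.F j).P k).co γ x.1)) with hy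
  have hyn : ‖y‖ ≤ N ^ (g.eps / 2) * N ^ (g.eps / 2) :=
    (k2n_mulVec_le _ _).trans (mul_le_mul hfrb hV (norm_nonneg _) (Real.rpow_pos_of_pos hN _).le)
  have hpv : |kpPv p y i| ≤ ‖y‖ := by
    unfold kpPv
    by_cases ha : 0 < p.ell
    · rw [if_pos ha]
      show |if (i : ℕ) = 0 then y i else 0| ≤ ‖y‖
      by_cases hi0 : (i : ℕ) = 0
      · rw [if_pos hi0]
        exact norm_le_pi_norm y i
      · rw [if_neg hi0, abs_zero]
        exact norm_nonneg _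
    · rw [if_neg ha]
      exact norm_le_pi_norm y i
  set b : ℝ := (R.F j).a (g.eps * g.U) k with hb
  have hbN : b = N ^ (-(g.eps * g.U)) := rfl
  have hbpos : 0 < b := Real.rpow_pos_of_pos hN _
  obtain ⟨hd1, hd2⟩ := k2a_dy_bounds hbpos
  have hdpos : 0 < kbDy b := lt_of_lt_of_le hbpos hd1
  have hz : |kpPv p y i / kbDy b| ≤ N ^ (g.eps * (g.U + 1)) := by
    rw [abs_div, abs_of_pos hdpos, div_le_iff₀ hdpos]
    calc |kpPv p y i| ≤ N ^ (g.eps / 2) * N ^ (g.eps / 2) := hpv.trans hyn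
      _ = N ^ (g.eps * (g.U + 1)) * b := by
        rw [hbN, ← Real.rpow_add hN, ← Real.rpow_add hN]
        congr 1
        ring
      _ ≤ N ^ (g.eps * (g.U + 1)) * kbDy b := mul_le_mul_of_nonneg_left hd1 (Real.rpow_pos_of_pos hN _).le
  have hceil : N ^ (g.eps * (g.U + 1)) ≤ ((⌈N ^ (g.eps * (g.U + 1))⌉₊ : ℕ) : ℝ) := Nat.le_ceil _
  obtain ⟨hz1, hz2⟩ := abs_le.1 hz
  show |⌊kpPv p y i / kbDy b⌋| ≤ ((⌈N ^ (g.eps * (g.U + 1))⌉₊ : ℕ) : ℤ)
  rw [abs_le]
  constructor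
  · rw [Int.le_floor]
    push_cast
    linarith
  · have h6 : ((⌊kpPv p y i / kbDy b⌋ : ℤ) : ℝ) ≤ ((⌈N ^ (g.eps * (g.U + 1))⌉₊ : ℕ) : ℝ) := (Int.floor_le _).trans (hz2.trans hceil)
    exact_mod_cast h6

/-- **HUB L-252-S4W-INFO** (04 l.643-672; cut in `S4W/Info.lean`).  Eventually some window `j < M` satisfies the information bound. -/
def K4wHubInfo : Prop :=
  ∀ (v : KbVer) (R : K4wRun v) (p : KpPrm) (S η τ δ ζc : ℝ) (g : KpStg) (fr fri : R.Frs) (Gd : R.Gds), 0 < η → p.Ok → p.S = S → 0 < τ → τ ≤ 1 → g.Fit p η τ → 0 < ζc → 16 * ζc ≤ g.ι * g.eps →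
    R.Ok p S η g δ ζc → R.FrsOk p g ζc fr fri → R.GdOk p ζc fr Gd → ∀ᶠ k in uf, ∃ j < R.M, (R.win g Gd j (fr j) (fri j)).InfoAt p g k

/-! ## 6. The glue -/

/-- **every window is a raw window package, up to the information bound** -/
theorem k4w_win_ok (hη : 0 < η) (hp : p.Ok) (hpS : p.S = S) (hτ : 0 < τ) (hτ1 : τ ≤ 1) (hg : g.Fit p η τ) (hζ : 0 < ζc) (hζg : 4 * ζc ≤ g.ζ) (hδ : 0 < δ)
    (hR : R.Ok p S η g δ ζc) (hfr : R.FrsOk p g κ fr fri) (hGd : R.GdOk p κ fr Gd) (hj : j ≤ R.M)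
    (hinfo : ∀ᶠ k in uf, (R.win g Gd j (fr j) (fri j)).InfoAt p g k) : (R.win g Gd j (fr j) (fri j)).Ok p η g δ ∧ (R.win g Gd j (fr j) (fri j)).Ok2 := by
  have hL := k4w_F_L hR hj
  have hblo := hR.b_lo j hj
  have hbhi := hR.b_hi j hj
  have hζ64 : g.ζ ≤ 1 / 64 := by
    have h2 : g.ζ ≤ g.eps * τ / 64 := hg.ζ_le
    have h3 : g.eps * τ ≤ 1 := by
      have := hg.eps_le
      have := hg.eps_pos
      nlinarith
    linarith
  have hρL : ∀ m ≤ R.G, R.ρ j m ∈ Set.Icc (0 : ℝ) (R.F j).L := by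
    intro m hm
    have hlen : m < (R.ch j).len := by
      rw [k4c_len_drop]
      have := k4w_a_lt hR hj hm
      omega
    have h1 := k4c_ch_dp_lt (R.ch j) (k4w_drop_ok R.c hR.chain (R.a j)) m hlen
    have h2 := k4c_ch_dp (R.ch j) (k4w_drop_ok R.c hR.chain (R.a j)) m hlen
    have h3 : (R.ch j).dp m = R.ρ j m := h2
    rw [h3] at h1
    exact ⟨h1.1.le, h1.2.le⟩
  refine ⟨{
    G_eq := hR.G_eq
    cap := ⟨R.d', by linarith [hR.d_le], hpS ▸ k4w_F_cap hR hj⟩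
    L_lo := by
      show 1 / 8 ≤ (R.F j).L
      rw [hL]; linarith
    L_hi := by
      show (R.F j).L ≤ 1
      rw [hL]; linarith
    prof := fun r hr => (hR.prof j hj r hr).trans (by linarith)
    ex1 := fun Y r h h0 hrL hY => by
      have := hR.ex1 j hj Y r h h0 hrL hY
      linarith
    ex2 := fun hv Y r h x h0 hrL hY hx hh => by
      have := hR.ex2 hv j hj Y r h x h0 hrL hY hx hh
      linarith
    atl := fun m hm => (k4w_nodes hR hGd hj m hm).1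
    sat := fun m hm => (k4w_nodes hR hGd hj m hm).2.1
    nar := fun hv m hm => (k4w_nodes hR hGd hj m hm).2.2 hv
    ρ_near := fun m hm => (hR.ρ_near j hj m hm).trans (by linarith)
    h_near := fun m hm => hR.h_near j hj m hm
    x_near := fun hv m hm => (hR.x_near hv j hj m hm).trans (by linarith)
    e_near := fun m hm => (hR.prof j hj _ (hρL m hm)).trans (by linarith)
    nest := by
      filter_upwards [k4w_nest (g := g) (fr := fr) (fri := fri) (Gd := Gd) hR hj] with k hk m hm c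
      exact ⟨k4w_wd_up k m c, (hk m hm c).1, (hk m hm c).2.1⟩
    full := fun τ' hτ' => by
      filter_upwards [k4w_full (g := g) (fri := fri) hGd hj τ' hτ'] with k hk m hm c
      exact (hk m hm c).1
    dense := k4w_dense hR hGd hj
    pth := k4w_pth hR hj
    fr_inv := (hfr j hj).inv
    fr_bd := (hfr j hj).bd
    fr_one := (hfr j hj).one
    major := fun hell τ' hτ' => by
      filter_upwards [k4w_full (g := g) (fri := fri) hGd hj τ' hτ'] with k hk m hm c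
      exact (hk m hm c).2 hell
    ang := (hfr j hj).ang
    rng := k4w_rng hτ hg hR hfr hj
    info := hinfo }, ⟨fun k m c => k4w_wd_up k m c, ?_⟩⟩
  filter_upwards [k4w_nest (g := g) (fr := fr) (fri := fri) (Gd := Gd) hR hj] with k hk m hm c
  exact (hk m hm c).2.2

end

/-- **THE EXIT** -/
theorem k4w_hub_win (hFr : K4wHubFr) (hI : K4wHubInfo) : K4wHubWin := by
  intro v S η τ p g hη hp hpS h1 hc hτ hτ1 hg
  have hιε : 0 < g.ι * g.eps := mul_pos hg.ι_pos hg.eps_pos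
  obtain ⟨ζc, hζc⟩ : ∃ ζc : ℝ, ζc = min (g.ζ / 4) (g.ι * g.eps / 16) := ⟨_, rfl⟩
  have hζ : 0 < ζc := by
    rw [hζc]
    exact lt_min (by linarith [hg.ζ_pos]) (by linarith)
  have hζg : 4 * ζc ≤ g.ζ := by
    have : ζc ≤ g.ζ / 4 := hζc ▸ min_le_left _ _
    linarith
  have hζι : 16 * ζc ≤ g.ι * g.eps := by
    have : ζc ≤ g.ι * g.eps / 16 := hζc ▸ min_le_right _ _
    linarith
  have hζ1 : ζc ≤ 1 / 64 := by
    have h2 : g.ζ ≤ g.eps * τ / 64 := hg.ζ_le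
    have h3 : g.eps * τ ≤ 1 := by
      have := hg.eps_le
      have := hg.eps_pos
      nlinarith
    linarith
  obtain ⟨δ, R, hδ, hδζ, hR⟩ := k4w_run S η τ p g hη hp hpS hc hτ hτ1 hg ζc hζ hζ1
  obtain ⟨fr, fri, hfr⟩ := k4w_frs hFr hη hp hpS h1 hτ hτ1 hg hζ hζg hR
  obtain ⟨Gd, hGd⟩ := k4w_gd_ex hη hp hpS hR hfr
  obtain ⟨j, hj, hinfo⟩ := k4w_uf_pigeon R.M _ (hI v R p S η τ δ ζc g fr fri Gd hη hp hpS hτ hτ1 hg hζ hζι hR hfr hGd)
  obtain ⟨a1, a2⟩ := k4w_win_ok hη hp hpS hτ hτ1 hg hζ hζg hδ hR hfr hGd hj.le hinfo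
  exact ⟨δ, R.win g Gd j (fr j) (fri j), hδ, by linarith, a1, a2⟩

theorem k4w_hub_win' (hFr : K4wHubFr) (hI : K4wHubInfo) : KpHubWin := by
  intro v S η τ p g hη hp hpS h1 hc hτ hτ1 hg
  obtain ⟨δ, W, h2, h3, h4, -⟩ := k4w_hub_win hFr hI v S η τ p g hη hp hpS h1 hc hτ hτ1 hg
  exact ⟨δ, W, h2, h3, h4⟩

end

end Claimed.Agent.R252
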