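import Claimed.Agent.R252.S4.Win
import Claimed.Agent.R252.S4C.ChainContract
import Claimed.Agent.R252.S4C.Info2Contract
import Claimed.Agent.R252.S4C.LinContract
import Claimed.Agent.R252.Base.Hub2

/-!
# ROW 252 (S0492), unit S4W (post BP-252-S4-WIN, helper79, sub-architect of helper294), file 1: RUNS, WINDOWS, FRAMES.      Definitions + the small structural lemmas they need.

ROUTE (ruling of helper294, 21:00Z):   `KpCrit`  -[S4W]->  `W : KpWin v`, `W.Ok p η g δ` (`S4/Win.lean`, sec. 4 = INTERFACE)  -[BRIDGE]->  `K4cRaw`  -[PREP]->  `KpSam.Ok`.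
Paper: 04-critical-paths.tex l.351-372 (grid, path), l.572-612 (angular ceilings, fullness prunings AT EVERY POTENTIAL PARENT), l.643-672 (entropy window).
* `c.take m`, `c.ancW m k`, `c.lamW m k`   the first `m` steps of a chain;   world / trajectory of the ROOT `E` of a world / trajectory of `c.prob m`  (no casts: recursion on `(c, m)`).
* `X : K4wAnc E`       a descendant problem `X.F` of `E` with its ancestry maps;   `c.ancLast`, `c.ancProb m`;   `k4w_take_anc : (c.take m).ancLast = c.ancProb m`  (THE ONLY transport: a predicate on `K4wAnc E` is rewritten along it).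
* `X.rv k γ l`         the ROOT VELOCITY of a trajectory of `X.F`.
* `X.FrOk p umax e κ fr fri`   the frames of the worlds (= parents) of `X.F`:  `fr_*`, `ang` of `KpWin.Ok`;  `major` in the form of `kb_axis` (for EVERY atlas of `X.F`, deficient labels have power-small mass);
                       `lip` : off power-small mass the palette variable `kpPv p (fr V)` is `N^{κ+α}`-Lipschitz in the root velocity.
* `R : K4wRun v`       a chain with its exponents and the grid of `M + 1` windows of `G + 2` steps:  step `j (G+2)` = the parent node of the window `j`,  `R.a j = j (G+2) + 1`,  `R.F j = c.prob (R.a j)` the remaining problem at that parent,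
                       `R.ch j = c.drop (R.a j)`, nodes `(R.ch j).sys m`, `m ≤ G`.      `R.Ok p S η g δ ζc` : everything which comes from `KpCrit` (tolerance `ζc`).
* `R.bad p κ fr α k`   the deepest worlds which fail a fullness / Lipschitz test of SOME window at tolerance `α`;   `Gd k` = complement at a slow tolerance `α k → 0`.
* `R.win g Gd j fr fri : KpWin v`   the window `j`: nodes restricted to the labels of the good deepest worlds, path `c.pthAt (R.a j) k (Gd k)`.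
-/

set_option autoImplicit false
set_option linter.unusedVariables false

namespace Claimed.Agent.R252

open MeasureTheory Filter Topology
open Claimed.Agent.R255 (uf)
open scoped ENNReal BigOperators

noncomputable section

variable {v : KbVer}

/-! ## 1. More on chains -/

namespace K4cCh

/-- the first `m` steps -/
def take : ∀ {E : KbEx v}, K4cCh v E → ℕ → K4cCh v E
  | _, nil E, _ => nil E
  | _, cons E _ _ _, 0 => nil E
  | _, cons E Y r t, m + 1 => cons E Y r (t.take m)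

/-- the world of the root `E` of a world of `c.prob m` -/
def ancW : ∀ {E : KbEx v} (c : K4cCh v E) (m k : ℕ), ((c.prob m).P k).W → (E.P k).W
  | _, nil _, _, _ => id
  | _, cons _ _ _ _, 0, _ => id
  | _, cons _ Y _ t, m + 1, k => fun γ => (Y k).wd (t.ancW m k γ)

/-- the trajectory of the root (the identity in disguise) -/
def lamW : ∀ {E : KbEx v} (c : K4cCh v E) (m k : ℕ), ((c.prob m).P k).Lam → (E.P k).Lam
  | _, nil _, _, _ => id
  | _, cons _ _ _ _, 0, _ => id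
  | _, cons _ _ _ t, m + 1, k => fun l => t.lamW m k l

end K4cCh

/-- a descendant problem with its ancestry maps -/
structure K4wAnc (E : KbEx v) where
  F : KbEx v
  anc : ∀ k, (F.P k).W → (E.P k).W
  lam : ∀ k, (F.P k).Lam → (E.P k).Lam

/-- the deepest problem of a chain -/
def K4cCh.ancLast {E : KbEx v} (c : K4cCh v E) : K4wAnc E := ⟨c.last, c.anc, c.lam⟩

/-- the problem after `m` steps -/
def K4cCh.ancProb {E : KbEx v} (c : K4cCh v E) (m : ℕ) : K4wAnc E := ⟨c.prob m, c.ancW m, c.lamW m⟩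

/-- one more step at the root -/
def K4wAnc.push {E : KbEx v} (Y : E.Sys) (r : ℝ) (X : K4wAnc (E.norm Y r)) : K4wAnc E :=
  ⟨X.F, fun k γ => (Y k).wd (X.anc k γ), fun k l => X.lam k l⟩

/-- **the only transport** -/
theorem k4w_take_anc : ∀ {E : KbEx v} (c : K4cCh v E) (m : ℕ), (c.take m).ancLast = c.ancProb m
  | _, K4cCh.nil _, _ => rfl
  | _, K4cCh.cons _ _ _ _, 0 => rfl
  | _, K4cCh.cons _ Y r t, m + 1 => congrArg (K4wAnc.push Y r) (k4w_take_anc t m)

theorem k4w_take_last {E : KbEx v} (c : K4cCh v E) (m : ℕ) : (c.take m).last = c.prob m :=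
  congrArg K4wAnc.F (k4w_take_anc c m)

theorem k4w_take_len : ∀ {E : KbEx v} (c : K4cCh v E) (m : ℕ), (c.take m).len = min m c.len
  | _, K4cCh.nil _, _ => by simp [K4cCh.take, K4cCh.len]
  | _, K4cCh.cons _ _ _ _, 0 => by simp [K4cCh.take, K4cCh.len]
  | _, K4cCh.cons _ Y r t, m + 1 => by
    simp only [K4cCh.take, K4cCh.len, k4w_take_len t m]
    omega

theorem k4w_take_all : ∀ {E : KbEx v} (c : K4cCh v E) (Φ : ℕ → ∀ E : KbEx v, E.Sys → ℝ → Prop) (hc : c.All Φ) (m : ℕ), (c.take m).All Φ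
  | _, K4cCh.nil _, _, _, _ => trivial
  | _, K4cCh.cons _ _ _ _, _, _, 0 => trivial
  | _, K4cCh.cons _ Y r t, Φ, hc, m + 1 => ⟨hc.1, k4w_take_all t _ hc.2 m⟩

theorem k4w_take_ok {E : KbEx v} (c : K4cCh v E) {d' S η : ℝ} {f : ℕ → ℝ → ℝ → ℝ} {r h nar : ℕ → ℝ} (hc : c.Ok d' S η f r h nar) (m : ℕ) :
    (c.take m).Ok d' S η f r h nar := k4w_take_all c _ hc m

/-- the ancestor in the root, through `c.prob m` -/
theorem k4w_ancW_ancAt : ∀ {E : KbEx v} (c : K4cCh v E) (m k : ℕ) (d : (c.last.P k).W), c.ancW m k (c.ancAt m k d) = c.anc k d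
  | _, K4cCh.nil _, _, _, _ => rfl
  | _, K4cCh.cons _ _ _ _, 0, _, _ => rfl
  | _, K4cCh.cons _ Y _ t, m + 1, k, d => congrArg (Y k).wd (k4w_ancW_ancAt t m k d)

theorem k4w_lamW_lamAt : ∀ {E : KbEx v} (c : K4cCh v E) (m k : ℕ) (l : (c.last.P k).Lam), c.lamW m k (c.lamAt m k l) = c.lam k l
  | _, K4cCh.nil _, _, _, _ => rfl
  | _, K4cCh.cons _ _ _ _, 0, _, _ => rfl
  | _, K4cCh.cons _ _ _ t, m + 1, k, l => k4w_lamW_lamAt t m k l

/-- the packet of the preceding node, relative to `c.prob m` -/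
theorem k4w_at_lab_up : ∀ {E : KbEx v} (c : K4cCh v E) (m i k : ℕ) (d : (c.last.P k).W), (c.drop m).up k i (c.labAt m (i + 1) k d) = c.labAt m i k d
  | _, K4cCh.nil _, _, _, _, _ => rfl
  | _, K4cCh.cons E Y r t, 0, i, k, d => k4c_ch_lab_up (K4cCh.cons E Y r t) k i d
  | _, K4cCh.cons _ _ _ t, m + 1, i, k, d => k4w_at_lab_up t m i k d

theorem k4w_last_R : ∀ {E : KbEx v} (c : K4cCh v E), c.last.R = E.R
  | _, K4cCh.nil _ => rfl
  | _, K4cCh.cons _ _ _ t => k4w_last_R t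

/-! ## 2. Frames of the parents -/

/-- the size of the major row -/
def k4wRow (D : Matrix (Fin v.j) (Fin v.j) ℝ) : ℝ := ∑ i : Fin v.j, ∑ l : Fin v.j, if (i : ℕ) = 0 then |D i l| else 0

namespace K4wAnc

variable {E : KbEx v} (X : K4wAnc E)

/-- **the root velocity** of a trajectory of the descendant -/
def rv (k : ℕ) (γ : (X.F.P k).W) (l : (X.F.P k).Lam) : KbB v := kbV ((E.P k).co (X.anc k γ) (X.lam k l))

/-- the worlds in which the palette variable is NOT `Λ`-Lipschitz in the root velocity -/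
def lipBad (p : KpPrm) (fr : ∀ k, (X.F.P k).W → Matrix (Fin v.j) (Fin v.j) ℝ) (Λ : ℝ) (k : ℕ) : Set (X.F.P k).W :=
  {γ | ∃ l ∈ (X.F.P k).Sp γ, ∃ l' ∈ (X.F.P k).Sp γ,
    Λ * ‖X.rv k γ l - X.rv k γ l'‖ < ‖kpPv p ((fr k γ).mulVec (kbV ((X.F.P k).co γ l) - kbV ((X.F.P k).co γ l')))‖}

/-- **the frames of the worlds of a descendant problem.**   `umax` = range of the velocity scales, `e` = terminal density exponent `f_F (L_F) 0`, `κ` = loss of the Lipschitz bound. -/
structure FrOk (p : KpPrm) (umax e κ : ℝ) (fr fri : ∀ k, (X.F.P k).W → Matrix (Fin v.j) (Fin v.j) ℝ) : Prop where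
  inv : ∀ k γ, fr k γ * fri k γ = 1
  bd : ∀ τ : ℝ, 0 < τ → ∀ᶠ k in uf, ∀ γ, kbMn (fr k γ) ≤ X.F.R.N k ^ τ ∧ kbMn (fri k γ) ≤ X.F.R.N k ^ τ
  one : p.ell = 0 → ∀ k γ, fr k γ = 1 ∧ fri k γ = 1
  /-- the angular ceiling for the palette variable (04 l.572-588) -/
  ang : ∀ u : ℝ, 0 < u → u ≤ umax →
    X.F.TypUp (fun k => (X.F.P k).lpair ((X.F.P k).hid (X.F.a X.F.L k)) (kpVb (X.F.P k) p (fr k) (X.F.a u k))) (e + p.S * u)
  /-- major-coordinate fullness in the form of `kb_axis` (04 l.591-612) -/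
  major : 0 < p.ell → ∀ (Y : X.F.Sys) (ρ h : ℝ), 0 ≤ ρ → ρ < X.F.L → X.F.IsAtlas Y ρ h → ∀ α : ℝ, 0 < α →
    KbPow X.F.R (X.F.chMass Y fun k c => k4wRow (fr k ((Y k).wd c) * ((Y k).ch c).D) ≤ X.F.R.N k ^ (-α) * (Y k).q)
  /-- given the parent, the palette variable is a Lipschitz function of the root velocity (04 l.661-668) -/
  lip : ∀ α : ℝ, 0 < α → KbPow X.F.R (X.F.massOf fun k γ => {_x | γ ∈ X.lipBad p fr (X.F.R.N k ^ (κ + α)) k})

end K4wAnc

/-- **HUB S4Z** (helper269; 04 l.572-612, `0 < ell`, version 2).   `c` = chain from an ancestor `E` to `F = c.last`, whose cumulative narrowness exceeds TWICE the finest velocity scale `umax` by a margin (so that `σ 1 ≤ √(2 |det D_A|) ≤ q_A N^{-umax}` without any fullness of the parent).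
Frames: `k4c_rect` for the cumulative chart `D_A` of the world `A` of `F` (label `c.lab k m A` of the LAST node, `m + 1 = c.len`): `fr A = diag(σ)⁻¹ Uᵀ D_A`, so that `D_A (fr A)⁻¹ = U diag(σ)`;  `kbMn (fr A) ≤ 4`, `|det| = 1/2`.
`lip` : `fr ΔV_F = q_A diag(σ)⁻¹ Uᵀ ΔV_root` (`k4c_ch_vel`), `q_A / σ 0 ≤ 2 q_A / kbMn D_A ≤ N^α` off the deficient parents (`kb_axis` in `E` for `c.sys m`, masses by `k4c_ch_mass`). -/
def K4wHubFr : Prop :=
  ∀ (S η d' umax mg e κ : ℝ) (p : KpPrm) (E : KbEx KbVer.two) (c : K4cCh KbVer.two E) (f : ℕ → ℝ → ℝ → ℝ) (r h nar : ℕ → ℝ) (fF : ℝ → ℝ → ℝ),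
    0 < S → 0 < η → p.S = S → 0 < p.ell → c.Ok d' S η f r h nar → 0 < c.len → c.last.Cap d' S η fF → e = fF c.last.L 0 →
    0 < umax → umax ≤ η * E.L → 0 < mg → 2 * umax + mg ≤ ∑ i ∈ Finset.range c.len, nar i → 0 ≤ κ →
    ∃ fr fri, c.ancLast.FrOk p umax e κ fr fri

/-! ## 3. Runs -/

/-- **a run** (data only): a chain with its exponents and a grid of `M + 1` windows of `G + 2` steps -/
structure K4wRun (v : KbVer) where
  E : KbEx v
  c : K4cCh v E
  d' : ℝ
  /-- profile, depth, time cost, narrowness of the step `i` -/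
  f : ℕ → ℝ → ℝ → ℝ
  r : ℕ → ℝ
  h : ℕ → ℝ
  nar : ℕ → ℝ
  /-- the profile of the deepest problem -/
  fl : ℝ → ℝ → ℝ
  /-- the windows `j < M` are candidates; the window `M` only closes the last history -/
  M : ℕ
  /-- index of the last node of a window -/
  G : ℕ

namespace K4wRun

variable (R : K4wRun v)

/-- number of steps before the window `j` (the last of them is its parent node) -/
def a (j : ℕ) : ℕ := j * (R.G + 2) + 1

/-- the remaining problem at the parent node of the window `j` -/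
abbrev F (j : ℕ) : KbEx v := R.c.prob (R.a j)

/-- the rest of the chain -/
abbrev ch (j : ℕ) : K4cCh v (R.F j) := R.c.drop (R.a j)

/-- the node `m` of the window `j` -/
abbrev nd (j m : ℕ) : (R.F j).Sys := (R.ch j).sys m

/-- `R.F j` with its ancestry in the root -/
abbrev an (j : ℕ) : K4wAnc R.E := R.c.ancProb (R.a j)

/-- depth of the parent node -/
def b (j : ℕ) : ℝ := ∑ i ∈ Finset.range (R.a j), R.r i

/-- cumulative narrowness of the parent node -/
def xb (j : ℕ) : ℝ := ∑ i ∈ Finset.range (R.a j), R.nar i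

/-- relative depth, time cost, narrowness of the node `m` of the window `j` -/
def ρ (j m : ℕ) : ℝ := ∑ i ∈ Finset.range (m + 1), R.r (i + R.a j)

def hh (j m : ℕ) : ℝ := ∑ i ∈ Finset.range (m + 1), R.h (i + R.a j)

def xx (j m : ℕ) : ℝ := ∑ i ∈ Finset.range (m + 1), R.nar (i + R.a j)

/-- **everything which comes from `KpCrit`**, tolerance `ζc` -/
structure Ok (p : KpPrm) (S η : ℝ) (g : KpStg) (δ ζc : ℝ) : Prop where
  G_eq : R.G = g.G
  chain : R.c.Ok R.d' S η R.f R.r R.h R.nar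
  len : R.c.len = (R.M + 1) * (R.G + 2)
  last : R.c.last.Cap R.d' S η R.fl
  L_one : R.E.L = 1
  d_le : R.d' ≤ p.d + ζc
  /-- enough windows -/
  M_ge : 4 * (g.U + 4) ≤ g.ι * R.M
  b_lo : ∀ j ≤ R.M, 1 / 4 - ζc ≤ R.b j
  b_hi : ∀ j ≤ R.M, R.b j ≤ 1 / 2
  ρ_near : ∀ j ≤ R.M, ∀ m ≤ R.G, |R.ρ j m - g.eps * g.σ m| ≤ 2 * ζc
  h_near : ∀ j ≤ R.M, ∀ m ≤ R.G, |R.hh j m - p.k * R.ρ j m| ≤ δ / 2
  x_near : v = KbVer.two → ∀ j ≤ R.M, ∀ m ≤ R.G, |R.xx j m - p.ell * R.ρ j m| ≤ 2 * ζc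
  xb_near : v = KbVer.two → ∀ j ≤ R.M, |R.xb j - p.ell * R.b j| ≤ ζc
  prof : ∀ j ≤ R.M, ∀ s ∈ Set.Icc (0 : ℝ) (R.F j).L, |R.f (R.a j) s 0 - p.d * s| ≤ ζc
  ex1 : ∀ j ≤ R.M, KpExcl1 (R.F j) p.k ζc
  ex2 : v = KbVer.two → ∀ j ≤ R.M, KpExcl2 (R.F j) p.k p.ell δ ζc

/-- frames for all windows -/
abbrev Frs := ∀ j k, ((R.F j).P k).W → Matrix (Fin v.j) (Fin v.j) ℝ

/-- the frames of all windows are admissible -/
def FrsOk (p : KpPrm) (g : KpStg) (κ : ℝ) (fr fri : R.Frs) : Prop :=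
  ∀ j ≤ R.M, (R.an j).FrOk p (g.eps * (g.U + 2)) (R.f (R.a j) (R.F j).L 0) κ (fr j) (fri j)

/-- the label of a deepest world at the node `m` of the window `j` -/
abbrev lb (j m k : ℕ) (d : (R.c.last.P k).W) : (R.nd j m k).C := R.c.labAt (R.a j) m k d

/-- the parent of a deepest world in the window `j` -/
abbrev pa (j k : ℕ) (d : (R.c.last.P k).W) : ((R.F j).P k).W := R.c.ancAt (R.a j) k d

/-- **the deepest worlds which fail a test of some window at tolerance `α`**: largest axis of a node, major row of a node, Lipschitz bound of the parent -/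
def bad (p : KpPrm) (κ : ℝ) (fr : R.Frs) (α : ℝ) (k : ℕ) : Set (R.c.last.P k).W :=
  {d | ∃ j ≤ R.M,
    (∃ m ≤ R.G, kbMn ((R.nd j m k).ch (R.lb j m k d)).D ≤ (R.F j).R.N k ^ (-α) * (R.nd j m k).q) ∨
    (0 < p.ell ∧ ∃ m ≤ R.G, k4wRow (fr j k ((R.nd j m k).wd (R.lb j m k d)) * ((R.nd j m k).ch (R.lb j m k d)).D) ≤ (R.F j).R.N k ^ (-α) * (R.nd j m k).q) ∨
    R.pa j k d ∈ (R.an j).lipBad p (fr j) ((R.F j).R.N k ^ (κ + α)) k}

/-- sets of good deepest worlds -/
abbrev Gds := ∀ k, Set (R.c.last.P k).W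

/-- the labels of the good deepest worlds -/
def keep (Gd : R.Gds) (j k m : ℕ) : Set (R.nd j m k).C := {c' | ∃ d ∈ Gd k, R.lb j m k d = c'}

theorem keep_up (Gd : R.Gds) (j k m : ℕ) (c' : (R.nd j (m + 1) k).C) (h : c' ∈ R.keep Gd j k (m + 1)) : (R.ch j).up k m c' ∈ R.keep Gd j k m := by
  obtain ⟨d, hd, rfl⟩ := h
  exact ⟨d, hd, (k4w_at_lab_up R.c (R.a j) m k d).symm⟩

/-- **the window `j`** -/
def win (g : KpStg) (Gd : R.Gds) (j : ℕ) (fr fri : ∀ k, ((R.F j).P k).W → Matrix (Fin v.j) (Fin v.j) ℝ) : KpWin v where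
  F := R.F j
  f := R.f (R.a j)
  G := R.G
  Q := fun k m => (R.nd j m k).restr (R.keep Gd j k m) fun _ => Set.univ
  up := fun k m c' => ⟨(R.ch j).up k m c'.1, R.keep_up Gd j k m c'.1 c'.2⟩
  ρ := R.ρ j
  h := R.hh j
  x := R.xx j
  e := fun m => R.f (R.a j) (R.ρ j m) 0
  Pth := fun k => R.c.pthAt (R.a j) k (Gd k)
  fr := fr
  fri := fri
  Mb := fun k => ⌈(R.F j).R.N k ^ (g.eps * (g.U + 1))⌉₊

end K4wRun

/-- the information bound of `KpWin.Ok` at one sample -/
def KpWin.InfoAt (W : KpWin v) (p : KpPrm) (g : KpStg) (k : ℕ) : Prop :=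
  k4Info (kpWt (W.F.P k) (W.Pth k)) (kpJt (W.F.P k) (W.Pth k) (W.Q k W.G) fun γ x i => kpClamp (W.Mb k) (W.vb p g k γ x i))
    ≤ g.ι * (g.eps * Real.log (W.F.R.N k))

/-- the two structural additions asked by helper294 -/
structure KpWin.Ok2 (W : KpWin v) : Prop where
  wd_up : ∀ k m c, (W.Q k m).wd (W.up k m c) = (W.Q k (m + 1)).wd c
  nestS : ∀ᶠ k in uf, ∀ m < W.G, ∀ c, (W.Q k (m + 1)).S c ⊆ (W.Q k m).S (W.up k m c)

/-- **THE EXIT OF S4W** = `KpHubWin` + `Ok2` -/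
def K4wHubWin : Prop :=
  ∀ (v : KbVer) (S η τ : ℝ) (p : KpPrm) (g : KpStg), 0 < η → p.Ok → p.S = S → (v = KbVer.one → p.ell = 0) → KpCrit v S η p → 0 < τ → τ ≤ 1 → g.Fit p η τ →
    ∃ (δ : ℝ) (W : KpWin v), 0 < δ ∧ δ ≤ g.ζ ∧ W.Ok p η g δ ∧ W.Ok2

/-- Stores the on-demand equation lemmas of the definitions above in THIS module (rule 6 hygiene). -/
theorem k4w_defs_eqns_cite : True := by
  have := @K4cCh.take.eq_1
  have := @K4cCh.take.eq_2
  have := @K4cCh.take.eq_3
  have := @K4cCh.ancW.eq_1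
  have := @K4cCh.ancW.eq_2
  have := @K4cCh.ancW.eq_3
  have := @K4cCh.lamW.eq_1
  have := @K4cCh.lamW.eq_2
  have := @K4cCh.lamW.eq_3
  have := @K4cCh.ancLast.eq_1
  have := @K4cCh.ancProb.eq_1
  have := @K4wAnc.push.eq_1
  have := @k4wRow.eq_1
  have := @K4wAnc.rv.eq_1
  have := @K4wAnc.lipBad.eq_1
  have := @K4wHubFr.eq_1
  have := @K4wRun.a.eq_1
  have := @K4wRun.F.eq_1
  have := @K4wRun.ch.eq_1
  have := @K4wRun.nd.eq_1
  have := @K4wRun.an.eq_1
  have := @K4wRun.b.eq_1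
  have := @K4wRun.xb.eq_1
  have := @K4wRun.ρ.eq_1
  have := @K4wRun.hh.eq_1
  have := @K4wRun.xx.eq_1
  have := @K4wRun.Frs.eq_1
  have := @K4wRun.FrsOk.eq_1
  have := @K4wRun.lb.eq_1
  have := @K4wRun.pa.eq_1
  have := @K4wRun.bad.eq_1
  have := @K4wRun.Gds.eq_1
  have := @K4wRun.keep.eq_1
  have := @K4wRun.win.eq_1
  have := @KpWin.InfoAt.eq_1
  have := @K4wHubWin.eq_1
  trivial

end

end Claimed.Agent.R252
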