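import Claimed.Agent.R252.S4W.Contract
import Claimed.Agent.R252.S4C.PrepContract

/-!
# ROW 252 (S0492), unit S4W, file 3 (helper294, prefix `k4wi_` / `K4wi`): THE ENTROPY WINDOW ON A RUN = the cut of `K4wHubInfo`.      CONTRACT file: every `sorry` is a leaf `L-252-S4W-I*`; the abstract lemma and the glue are proved.

Paper: 04 l.643-672.      ONE sample `k`, one chain `c : K4cCh v E`, `P := c.last.P k` the deepest problem, `Gd : Set P.W` the good deepest worlds.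
* `K4wiOm P Gd = {d // d ∈ Gd} × (P.Lam × ℝ)`  THE COMMON PROBABILITY SPACE of all windows (σ-algebra: discrete on the worlds),   `k4wiLaw P Gd` = the normalised incidence law `∑_d om d δ_d ⊗ mu d / mass`.
* labels on it:   `c.k4wiA k Gd m` the world of `c.prob m` (parent),   `c.k4wiX k Gd m` the incidence in `c.prob m`,   `c.k4wiE k Gd m i` the KEPT label at the node `i` of `c.drop m`,   `c.k4wiL k Gd m ℓ` a label `ℓ` of `c.prob m`,
  `c.k4wiV k Gd b Mr` the clamped bin of the ROOT velocity.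
* I1 the law;  I2 measurability of the labels;  I3 + I4 the dictionary `k4Info (kpWt ..) (kpJt ..) = k4cInfo (k4wiLaw ..) A E (ℓ)` (`k4c_at_mass`);  I5 options of the palette bin given (parent, root bin);  I6 range of the root bins;  I7 numerics.
* `k4wi_abs` (PROVED): `k4c_window2` with the fixed variable `V` (`n = 1`), `k4c_info_mono`, `k4c_info_refine`.
-/

set_option autoImplicit false
set_option linter.unusedVariables false

namespace Claimed.Agent.R252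

open MeasureTheory Filter Topology
open Claimed.Agent.R255 (uf)
open scoped ENNReal BigOperators

noncomputable section

variable {v : KbVer}

/-! ## 0. The abstract window (proved) -/

/-- **the entropy window for nested parents, a fixed reference variable `V` and moving required variables `w j`** -/
theorem k4wi_abs {Ω : Type*} [MeasurableSpace Ω] (μ : Measure Ω) [IsProbabilityMeasure μ] {α ε β' : ℕ → Type} {β : Type} [∀ j, Fintype (α j)] [∀ j, Fintype (ε j)] [∀ j, Fintype (β' j)]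
    [Fintype β] {A : ∀ j, Ω → α j} {E : ∀ j, Ω → ε j} {V : Ω → β} {w : ∀ j, Ω → β' j} (hA : ∀ j, KsLab (A j)) (hV : KsLab V)
    (hnest : ∀ j, ∃ f : α (j + 1) → α j, ∀ x, A j x = f (A (j + 1) x)) (hEn : ∀ j, ∃ f : α (j + 1) → ε j, ∀ x, E j x = f (A (j + 1) x)) {n : ℕ} (hn : 0 < n) {M : ℕ} (hM : 0 < M)
    (hE : ∀ j < M, KsLab (E j)) (hw : ∀ j < M, KsLab (w j)) (hopt : ∀ j < M, KsOpt μ (ksPair (A j) V) (w j) n) :
    ∃ j < M, k4cInfo μ (A j) (E j) (w j) ≤ Real.log (Fintype.card β) / M + Real.log n := by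
  classical
  obtain ⟨j, hj, h1⟩ := k4c_window2 μ (S := α) (β := fun _ => β) (hist := A) (V := fun _ => V) hA (fun _ => hV) hnest (n := 1) one_pos (by
    intro j s0
    refine ⟨{s0.2}, by simp, fun d0 hd0 => ?_⟩
    have : ksPair (ksPair (A (j + 1)) V) V ⁻¹' {(s0, d0)} = ∅ := by
      ext x
      simp only [ksPair, Set.mem_preimage, Set.mem_singleton_iff, Set.mem_empty_iff_false, iff_false]
      intro hx
      have h2 : V x = s0.2 := congrArg Prod.snd (Prod.ext_iff.1 hx).1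
      have h3 : V x = d0 := (Prod.ext_iff.1 hx).2
      exact hd0 (by rw [Finset.mem_singleton, ← h3, h2])
    rw [ksMass, this, measure_empty]) hM
  obtain ⟨f, hf⟩ := hEn j
  have h2 := k4c_info_mono μ (hA j) (hE j hj) (hA (j + 1)) hV f hf
  have h3 := k4c_info_refine μ (hA j) (hE j hj) hV (hw j hj) hn (hopt j hj)
  refine ⟨j, hj, ?_⟩
  rw [Nat.cast_one, Real.log_one, add_zero] at h1
  linarith

/-! ## 1. The common probability space -/

/-- incidences over a set of worlds -/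
def K4wiOm (P : KbPb v) (Gd : Set P.W) : Type := {d : P.W // d ∈ Gd} × (P.Lam × ℝ)

/-- discrete on the worlds -/
instance k4wiMS (P : KbPb v) (Gd : Set P.W) : MeasurableSpace (K4wiOm P Gd) := @Prod.instMeasurableSpace _ _ ⊤ _

/-- the event of a family of incidence sets -/
def k4wiEv (P : KbPb v) (Gd : Set P.W) (T : P.W → Set (P.Lam × ℝ)) : Set (K4wiOm P Gd) := {ω | ω.2 ∈ T ω.1.1}

open Classical in
/-- **the normalised incidence law over the worlds of `Gd`** -/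
def k4wiLaw (P : KbPb v) (Gd : Set P.W) : Measure (K4wiOm P Gd) :=
  (P.mass fun d => {_x | d ∈ Gd})⁻¹ • ∑ d : {d : P.W // d ∈ Gd}, P.om d.1 • @Measure.map _ (K4wiOm P Gd) _ _ (fun x => (d, x)) (P.mu d.1)

namespace K4cCh

variable {E : KbEx v} (c : K4cCh v E) (k : ℕ) (Gd : Set (c.last.P k).W)

/-- the world of `c.prob m` -/
def k4wiA (m : ℕ) : K4wiOm (c.last.P k) Gd → ((c.prob m).P k).W := fun ω => c.ancAt m k ω.1.1

/-- the incidence in `c.prob m` -/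
def k4wiX (m : ℕ) : K4wiOm (c.last.P k) Gd → ((c.prob m).P k).Lam × ℝ := fun ω => c.incAt m k ω.1.1 ω.2

/-- the labels of the good deepest worlds at the node `i` of `c.drop m`   (`R.keep Gd j k i` is `R.c.k4wiKeep k (Gd k) (R.a j) i` by `rfl`) -/
def k4wiKeep (m i : ℕ) : Set ((c.drop m).sys i k).C := {c' | ∃ d ∈ Gd, c.labAt m i k d = c'}

/-- the node `i` of `c.drop m`, restricted to the kept labels -/
def k4wiQ (m i : ℕ) : KbSys ((c.prob m).P k) := ((c.drop m).sys i k).restr (c.k4wiKeep k Gd m i) fun _ => Set.univ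

/-- the kept label -/
def k4wiE (m i : ℕ) : K4wiOm (c.last.P k) Gd → (c.k4wiQ k Gd m i).C := fun ω => ⟨c.labAt m i k ω.1.1, ω.1.1, ω.1.2, rfl⟩

/-- a label of `c.prob m` -/
def k4wiL {D : Type} (m : ℕ) (ℓ : ((c.prob m).P k).Lab D) : K4wiOm (c.last.P k) Gd → D := fun ω => ℓ (c.k4wiA k Gd m ω) (c.k4wiX k Gd m ω)

/-- the root velocity -/
def k4wiRv (d : (c.last.P k).W) (l : (c.last.P k).Lam) : KbB v := kbV ((E.P k).co (c.anc k d) (c.lam k l))

/-- the clamped bin of mesh `b` of the root velocity -/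
def k4wiV (b : ℝ) (Mr : ℕ) : K4wiOm (c.last.P k) Gd → Fin v.j → Fin (2 * Mr + 1) := fun ω i => kpClamp Mr (kbBin b (c.k4wiRv k ω.1.1 ω.2.1 i))

end K4cCh

/-- the clamped palette bins of mesh `b` -/
def k4wiPb (P : KbPb v) (p : KpPrm) (fr : P.W → Matrix (Fin v.j) (Fin v.j) ℝ) (b : ℝ) (Mb : ℕ) : P.Lab (Fin v.j → Fin (2 * Mb + 1)) :=
  fun γ x i => kpClamp Mb (kpVb P p fr b γ x i)

/-- number of options of the palette bin -/
def k4wiN (v : KbVer) (Λ : ℝ) : ℕ := (2 * (⌊2 * Λ⌋₊ + 1) + 1) ^ v.j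

theorem k4wi_eqns_cite : True := by
  have := @K4wiOm.eq_1
  have := @k4wiMS.eq_1
  have := @k4wiEv.eq_1
  have := @k4wiLaw.eq_1
  have := @K4cCh.k4wiA.eq_1
  have := @K4cCh.k4wiX.eq_1
  have := @K4cCh.k4wiKeep.eq_1
  have := @K4cCh.k4wiQ.eq_1
  have := @K4cCh.k4wiE.eq_1
  have := @K4cCh.k4wiL.eq_1
  have := @K4cCh.k4wiRv.eq_1
  have := @K4cCh.k4wiV.eq_1
  have := @k4wiPb.eq_1
  have := @k4wiN.eq_1
  trivial


/-! ## 2. LEAF I1 : the law (~200 l.) -/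

section law

variable (P : KbPb v) (Gd : Set P.W)

theorem k4wi_meas_of (S : Set (K4wiOm P Gd)) (h : ∀ d : {d : P.W // d ∈ Gd}, MeasurableSet {x : P.Lam × ℝ | ((d, x) : K4wiOm P Gd) ∈ S}) : MeasurableSet S := by
  have e : S = ⋃ d : {d : P.W // d ∈ Gd}, (({d} : Set {d : P.W // d ∈ Gd}) ×ˢ {x : P.Lam × ℝ | ((d, x) : K4wiOm P Gd) ∈ S} : Set ({d : P.W // d ∈ Gd} × (P.Lam × ℝ))) := by
    ext ω
    constructor
    · intro hω
      exact Set.mem_iUnion.2 ⟨ω.1, rfl, hω⟩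
    · intro hω
      obtain ⟨d, h1, h2⟩ := Set.mem_iUnion.1 hω
      have h1' : ω.1 = d := h1
      have : ω = (d, ω.2) := Prod.ext h1' rfl
      rw [this]
      exact h2
  rw [e]
  exact @MeasurableSet.iUnion _ _ (@Prod.instMeasurableSpace _ _ ⊤ _) _ _ fun d => @MeasurableSet.prod _ _ ⊤ _ _ _ MeasurableSpace.measurableSet_top (h d)

theorem k4wi_mk_meas (d : {d : P.W // d ∈ Gd}) : @Measurable _ (K4wiOm P Gd) _ _ (fun x : P.Lam × ℝ => (d, x)) := by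
  let _ : MeasurableSpace {d : P.W // d ∈ Gd} := ⊤
  exact measurable_const.prodMk measurable_id

/-- a set of the common space is measurable as soon as its slices are -/
theorem k4wi_slice_meas (S : Set (K4wiOm P Gd)) (h : ∀ d : {d : P.W // d ∈ Gd}, MeasurableSet {x : P.Lam × ℝ | ((d, x) : K4wiOm P Gd) ∈ S}) : MeasurableSet S := by
  have e : S = ⋃ d : {d : P.W // d ∈ Gd}, {ω : K4wiOm P Gd | ω.1 = d ∧ ((d, ω.2) : K4wiOm P Gd) ∈ S} := by
    ext ω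
    simp only [Set.mem_iUnion, Set.mem_ofPred_eq]
    constructor
    · intro hω
      exact ⟨ω.1, rfl, hω⟩
    · rintro ⟨d, rfl, hω⟩
      exact hω
  rw [e]
  refine MeasurableSet.iUnion fun d => ?_
  exact @MeasurableSet.prod _ _ ⊤ _ {d} _ (MeasurableSpace.measurableSet_top) (h d)

/-- PROOF.  `k4wiEv P Gd T = ⋃ d : {d // d ∈ Gd}, {d} ×ˢ T d.1` (finite union; `{d}` is measurable for `⊤`: `MeasurableSpace.measurableSet_top`; `MeasurableSet.prod`), or `measurable_from_prod_countable_right`-type lemmas.   `unfold K4wiOm` / `show` if the instance is not seen. -/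
theorem k4wi_ev_meas (T : P.W → Set (P.Lam × ℝ)) (hT : ∀ d, MeasurableSet (T d)) : MeasurableSet (k4wiEv P Gd T) :=
  k4wi_meas_of P Gd _ fun d => hT d.1

/-- PROOF.  `Measure.smul_apply`, `Measure.finset_sum_apply`, `Measure.map_apply` (the map `x ↦ (d, x)` is measurable: `measurable_prodMk_left`; the event by `k4wi_ev_meas`), the preimage is `T d`;
`∑ d : Gd, om d * mu d (T d) = ∑ d, Gd.indicator ..` (`k4c_sum_sub`) `= P.mass fun d => {x | d ∈ Gd ∧ x ∈ T d}` (per `d`: the set is `T d` or `∅`);  `ENNReal.div_eq_inv_mul`. -/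
theorem k4wi_law_apply (T : P.W → Set (P.Lam × ℝ)) (hT : ∀ d, MeasurableSet (T d)) :
    k4wiLaw P Gd (k4wiEv P Gd T) = P.mass (fun d => {x | d ∈ Gd ∧ x ∈ T d}) / P.mass fun d => {_x | d ∈ Gd} := by
  classical
  unfold k4wiLaw
  rw [Measure.smul_apply, Measure.finsetSum_apply, smul_eq_mul, ENNReal.div_eq_inv_mul]
  congr 1
  have h1 : ∀ d : {d : P.W // d ∈ Gd}, (P.om d.1 • @Measure.map _ (K4wiOm P Gd) _ _ (fun x => (d, x)) (P.mu d.1)) (k4wiEv P Gd T) = P.om d.1 * P.mu d.1 (T d.1) := by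
    intro d
    rw [Measure.smul_apply, smul_eq_mul, Measure.map_apply (k4wi_mk_meas P Gd d) (k4wi_ev_meas P Gd T hT)]
    rfl
  rw [Finset.sum_congr rfl fun d _ => h1 d]
  rw [k4c_sum_sub Gd _ fun d => P.om d * P.mu d (T d)]
  unfold KbPb.mass
  refine Finset.sum_congr rfl fun d _ => ?_
  by_cases hd : d ∈ Gd
  · rw [Set.indicator_of_mem hd]
    congr 2
    ext x
    simp [hd]
  · rw [Set.indicator_of_notMem hd]
    have : {x : P.Lam × ℝ | d ∈ Gd ∧ x ∈ T d} = ∅ := by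
      ext x
      simp [hd]
    show 0 = P.om d * P.mu d {x : P.Lam × ℝ | d ∈ Gd ∧ x ∈ T d}
    rw [this, measure_empty, mul_zero]

/-- PROOF.  `k4wi_law_apply` with `T = univ`; `ENNReal.div_self` (`≠ ⊤`: `k4c_mass_ne_top hP`). -/
theorem k4wi_law_prob (hP : P.WF) (hZ : P.mass (fun d => {_x | d ∈ Gd}) ≠ 0) : IsProbabilityMeasure (k4wiLaw P Gd) := by
  constructor
  have e : (Set.univ : Set (K4wiOm P Gd)) = k4wiEv P Gd fun _ => Set.univ := by
    ext ω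
    simp [k4wiEv]
  rw [e, k4wi_law_apply P Gd _ fun _ => MeasurableSet.univ]
  have e2 : (fun d => {x : P.Lam × ℝ | d ∈ Gd ∧ x ∈ (Set.univ : Set (P.Lam × ℝ))}) = fun d => {_x : P.Lam × ℝ | d ∈ Gd} := by
    funext d
    ext x
    simp
  rw [e2]
  exact ENNReal.div_self hZ (k4c_mass_ne_top hP _)

/-- the law lives on the events.   PROOF.  `S ⊆ k4wiEv P Gd fun d => (P.Ev d)ᶜ`; `k4wi_law_apply` (`hP.Ev_meas`), `mu d (Ev d)ᶜ = 0` (`KbPb.mu`, `Measure.restrict_apply`, `Set.compl_inter_self`), every term of `mass` vanishes (`measure_mono_null`). -/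
theorem k4wi_law_zero (hP : P.WF) (S : Set (K4wiOm P Gd)) (h : ∀ ω ∈ S, ω.2 ∉ P.Ev ω.1.1) : k4wiLaw P Gd S = 0 := by
  have hsub : S ⊆ k4wiEv P Gd fun d => (P.Ev d)ᶜ := fun ω hω => h ω hω
  refine measure_mono_null hsub ?_
  rw [k4wi_law_apply P Gd _ fun d => (hP.Ev_meas d).compl]
  have : P.mass (fun d => {x | d ∈ Gd ∧ x ∈ (P.Ev d)ᶜ}) = 0 := by
    unfold KbPb.mass
    refine Finset.sum_eq_zero fun d _ => ?_
    have h0 : P.mu d (P.Ev d)ᶜ = 0 := by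
      unfold KbPb.mu
      rw [Measure.restrict_apply (hP.Ev_meas d).compl, Set.compl_inter_self, measure_empty]
    rw [measure_mono_null (fun x hx => hx.2) h0, mul_zero]
  rw [this, ENNReal.zero_div]

/-- a function on the common space is a label as soon as it is one on every world.   PROOF.  `f ⁻¹' {s0} = ⋃ d, {d} ×ˢ {x | f (d, x) = s0}`, as in `k4wi_ev_meas`. -/
theorem k4wi_lab_of {D : Type} (f : K4wiOm P Gd → D) (h : ∀ (d : {d : P.W // d ∈ Gd}) (s0 : D), MeasurableSet {x : P.Lam × ℝ | f (d, x) = s0}) : KsLab f :=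
  fun s0 => k4wi_meas_of P Gd _ fun d => h d s0

end law

/-! ## 3. LEAF I2 : the labels are measurable (~200 l.) -/

/-- clamped bins of a measurable vector -/
theorem k4wi_bin_meas {Ω : Type*} [MeasurableSpace Ω] {n : ℕ} (f : Ω → Fin n → ℝ) (hf : Measurable f) (b : ℝ) (M : ℕ) (d : Fin n → Fin (2 * M + 1)) :
    MeasurableSet {x | (fun i => kpClamp M (kbBin b (f x i))) = d} := by
  have h4 : Measurable (fun x i => kbBin b (f x i)) := by
    unfold kbBin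
    refine measurable_pi_lambda _ fun i => ?_
    exact Int.measurable_floor.comp (((measurable_pi_apply i).comp hf).div_const _)
  exact h4 ((Set.to_countable {z : Fin n → ℤ | (fun i => kpClamp M (z i)) = d}).measurableSet)

/-- PROOF.  `kpVb`, `kbBin = ⌊· / kbDy b⌋`: `x ↦ kbV (P.co γ x.1)` is measurable (`hP.co_meas`, `measurable_fst`; `kbV` is a projection), `mulVec` is continuous/measurable (`k4c_mulVec_meas` or `measurable_pi_iff` + finite sums), `kpPv` by cases on `0 < p.ell`,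
`Int.measurable_floor`; a function into a countable discrete type with measurable coordinates: the fibre of `b` is `⋂ i, {x | .. i = b i}`.   Model: `k4c_pv_meas`, `k4c_vb_meas` (`S4C/PrepContract.lean`). -/
theorem k4wi_Pb_meas (P : KbPb v) (hP : P.WF) (p : KpPrm) (fr : P.W → Matrix (Fin v.j) (Fin v.j) ℝ) (b : ℝ) (Mb : ℕ) : P.LabMeas (k4wiPb P p fr b Mb) := by
  intro γ d
  have h1 : Measurable fun x : P.Lam × ℝ => kbV (P.co γ x.1) := by
    have := hP.co_meas γ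
    unfold kbV
    fun_prop
  have h2 : Measurable fun x : P.Lam × ℝ => (fr γ).mulVec (kbV (P.co γ x.1)) := by
    have hc : Continuous (fun y : KbB v => (fr γ).mulVec y) := by fun_prop
    exact hc.measurable.comp h1
  have h3 : Measurable fun x : P.Lam × ℝ => kpPv p ((fr γ).mulVec (kbV (P.co γ x.1))) := by
    unfold kpPv
    split_ifs with h
    · refine measurable_pi_lambda _ fun i => ?_
      by_cases hi : (i : ℕ) = 0
      · simp only [hi, if_true]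
        exact (measurable_pi_apply i).comp h2
      · simp only [hi, if_false]
        exact measurable_const
    · exact h2
  exact k4wi_bin_meas _ h3 b Mb d

section labels

variable {E : KbEx v} (c : K4cCh v E) (k : ℕ) (Gd : Set (c.last.P k).W)

/-- PROOF.  `k4wi_lab_of`: on a world the function is constant (`MeasurableSet.const`). -/
theorem k4wi_A_lab (m : ℕ) : KsLab (c.k4wiA k Gd m) := by
  exact k4wi_lab_of _ _ _ fun d s0 => MeasurableSet.const (c.ancAt m k d.1 = s0)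

theorem k4wi_E_lab (m i : ℕ) : KsLab (c.k4wiE k Gd m i) := by
  exact k4wi_lab_of _ _ _ fun d s0 => MeasurableSet.const ((⟨c.labAt m i k d.1, d.1, d.2, rfl⟩ : (c.k4wiQ k Gd m i).C) = s0)

/-- PROOF.  `k4wi_lab_of`; `{x | ℓ γ (incAt d x) = s0} = incAt d ⁻¹' (ℓ γ ⁻¹' {s0})`, `k4c_at_inc_meas`. -/
theorem k4wi_L_lab {D : Type} (m : ℕ) (ℓ : ((c.prob m).P k).Lab D) (hℓ : ((c.prob m).P k).LabMeas ℓ) : KsLab (c.k4wiL k Gd m ℓ) := by
  exact k4wi_lab_of _ _ _ fun d s0 => (k4c_at_inc_meas c k m d.1) (hℓ (c.ancAt m k d.1) s0)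

/-- PROOF.  `k4wi_lab_of`; `l ↦ kbV ((E.P k).co γ (c.lam k l))` is measurable (`hE.co_meas`, `k4c_ch_lam_meas`), then as in `k4wi_Pb_meas`. -/
theorem k4wi_V_lab (hE : (E.P k).WF) (b : ℝ) (Mr : ℕ) : KsLab (c.k4wiV k Gd b Mr) := by
  refine k4wi_lab_of _ _ _ fun d s0 => ?_
  have h1 : Measurable fun x : (c.last.P k).Lam × ℝ => c.k4wiRv k d.1 x.1 := by
    have h2 : Measurable fun x : (c.last.P k).Lam × ℝ => (E.P k).co (c.anc k d.1) (c.lam k x.1) :=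
      (hE.co_meas _).comp ((k4c_ch_lam_meas c k).comp measurable_fst)
    unfold K4cCh.k4wiRv kbV
    exact (measurable_fst.comp measurable_snd).comp h2
  exact k4wi_bin_meas _ h1 b Mr s0

/-! ## 4. LEAF I3 : push-forward of the law to a window (~150 l.) -/

/-- **the law of `(parent, incidence)` of the window at `c.prob m` is the normalised final path.**
PROOF.  The event is `k4wiEv _ Gd fun d => c.incAt m k d ⁻¹' U (c.ancAt m k d)` (`rfl`), measurable by `k4c_at_inc_meas`.   `k4wi_law_apply`;  `k4c_at_mass hc m Gd U hU` : `a * Zp = F.mass (U ∩ pth)`,  `k4c_at_mass hc m Gd (fun _ => univ)` : `Z * Zp = F.mass (univ ∩ pth)` (`Set.univ_inter`;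
the set `{x | d ∈ Gd ∧ incAt d x ∈ univ}` is `{x | d ∈ Gd}`);  `Zp ≠ 0`, `Zp ≤ 1` (`k4c_at_Zp`): `a / Z = (a * Zp) / (Z * Zp)` (`ENNReal.mul_div_mul_right`). -/
theorem k4wi_push (hc : c.WFat k) (m : ℕ) (U : ((c.prob m).P k).W → Set (((c.prob m).P k).Lam × ℝ)) (hU : ∀ γ, MeasurableSet (U γ)) :
    k4wiLaw (c.last.P k) Gd {ω | c.k4wiX k Gd m ω ∈ U (c.k4wiA k Gd m ω)}
      = ((c.prob m).P k).mass (fun γ => U γ ∩ c.pthAt m k Gd γ) / ((c.prob m).P k).mass (c.pthAt m k Gd) := by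
  have h0 : {ω | c.k4wiX k Gd m ω ∈ U (c.k4wiA k Gd m ω)} = k4wiEv (c.last.P k) Gd fun d => c.incAt m k d ⁻¹' U (c.ancAt m k d) := rfl
  rw [h0, k4wi_law_apply _ _ _ (fun d => (k4c_at_inc_meas c k m d) (hU _))]
  have h1 := k4c_at_mass c k hc m Gd U hU
  have h2 := k4c_at_mass c k hc m Gd (fun _ => Set.univ) (fun _ => MeasurableSet.univ)
  simp only [Set.univ_inter, Set.mem_univ, and_true] at h2
  obtain ⟨hz, hz1⟩ := k4c_at_Zp c k hc m
  rw [← h1, ← h2]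
  exact (ENNReal.mul_div_mul_right _ _ hz (ne_top_of_le_ne_top ENNReal.one_ne_top hz1)).symm

/-! ## 5. LEAF I4 : the dictionary (~350 l.; a, b, c may be taken separately) -/

/-- I4a.  PROOF.  `k4cP μ A γ = (μ (A ⁻¹' {γ})).toReal`;  `A ⁻¹' {γ} = {ω | X ω ∈ U (A ω)}` with `U γ' := {x | γ' = γ}` (`univ` or `∅`: measurable);  `k4wi_push`;  `F.mass (fun γ' => U γ' ∩ pth γ') = om γ * mu γ (pth γ)` (`Finset.sum_eq_single γ`). -/
theorem k4wi_dict_P (hc : c.WFat k) (m : ℕ) (γ : ((c.prob m).P k).W) :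
    kpWt ((c.prob m).P k) (c.pthAt m k Gd) γ = k4cP (k4wiLaw (c.last.P k) Gd) (c.k4wiA k Gd m) γ := by
  classical
  have h0 : k4wiLaw (c.last.P k) Gd (c.k4wiA k Gd m ⁻¹' {γ}) = _ := k4wi_push c k Gd hc m (fun γ' => {_x : ((c.prob m).P k).Lam × ℝ | γ' = γ}) (fun γ' => MeasurableSet.const _)
  unfold kpWt k4cP
  rw [Measure.real, h0]
  congr 2
  unfold KbPb.mass
  rw [Finset.sum_eq_single γ]
  · congr 2
    ext x
    simp
  · intro γ' _ hne
    have : ({_x : ((c.prob m).P k).Lam × ℝ | γ' = γ} ∩ c.pthAt m k Gd γ') = ∅ := by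
      ext x
      simp [hne]
    show ((c.prob m).P k).om γ' * ((c.prob m).P k).mu γ' ({_x : ((c.prob m).P k).Lam × ℝ | γ' = γ} ∩ c.pthAt m k Gd γ') = 0
    rw [this, measure_empty, mul_zero]
  · intro h
    exact absurd (Finset.mem_univ _) h

/-- I4b.  PROOF.  `wd e ≠ γ` : the left side is `0` (`if_neg`), the event `A⁻¹{γ} ∩ E⁻¹{e} ∩ ..` is empty (`k4c_at_lab_wd` : `wd (labAt d) = ancAt d`).
`wd e = γ` : `U γ' := {x | γ' = γ ∧ x ∈ ((c.drop m).sys i k).S e.1 ∧ ℓ γ' x = b}` (measurable: `k4c_ch_WF` for `c.drop m` (`k4c_all_drop`, `k4c_len_drop`), `hℓ`).   The events `A⁻¹{γ} ∩ E⁻¹{e} ∩ L⁻¹{b}` and `{ω | X ω ∈ U (A ω)}` coincide on `{ω.2 ∈ Ev ω.1.1}`: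
`→` `k4c_at_lab_S`;  `←` `X ω ∈ S e.1 ∩ S (labAt d)`, both labels in the world `γ`: equal (`WF.S_sub`, `k4c_kbI_inj`, `WF.A_disj`), `Subtype.ext`;   so they have the same measure (`measure_congr` / two `measure_mono` + `k4wi_law_zero` on the differences).
`k4wi_push` for `U` and (I4a) for the denominator:  the quotient of `om γ * mu γ (S e ∩ ℓ⁻¹ b ∩ pth γ) / m` by `om γ * mu γ (pth γ) / m`;  `hp` gives `om γ ≠ 0`, `m ≠ ⊤`, ..; `om γ ≠ ⊤` (`≤ ∑ = 1`);  `ENNReal.toReal_div`, `ENNReal.mul_div_mul_left`.   (`(k4wiQ ..).S e = S e.1 ∩ univ`.) -/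
theorem k4wi_dict_R (hc : c.WFat k) (hl : (c.last.P k).WF) (m i : ℕ) (hi : m + i < c.len) {β : Type} (ℓ : ((c.prob m).P k).Lab β) (hℓ : ((c.prob m).P k).LabMeas ℓ)
    (γ : ((c.prob m).P k).W) (hp : k4cP (k4wiLaw (c.last.P k) Gd) (c.k4wiA k Gd m) γ ≠ 0) (e : (c.k4wiQ k Gd m i).C) (b : β) :
    kpJt ((c.prob m).P k) (c.pthAt m k Gd) (c.k4wiQ k Gd m i) ℓ γ e b
      = k4cR (k4wiLaw (c.last.P k) Gd) (c.k4wiA k Gd m) (c.k4wiE k Gd m i) (c.k4wiL k Gd m ℓ) γ e b := by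
  classical
  have hYW : ((c.drop m).sys i k).WF := by
    have h1 : (c.drop m).WFat k := k4c_all_drop c _ hc m
    exact k4c_ch_WF (c.drop m) k h1 i (by rw [k4c_len_drop]; omega)
  by_cases hw : ((c.drop m).sys i k).wd e.1 = γ
  · -- the main case
    set U : ((c.prob m).P k).W → Set (((c.prob m).P k).Lam × ℝ) := fun γ' => {x | γ' = γ ∧ x ∈ ((c.drop m).sys i k).S e.1 ∧ ℓ γ' x = b} with hUdef
    have hU : ∀ γ', MeasurableSet (U γ') := by
      intro γ'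
      by_cases hg : γ' = γ
      · have : U γ' = ((c.drop m).sys i k).S e.1 ∩ ℓ γ' ⁻¹' {b} := by
          ext x
          simp [hUdef, hg]
        rw [this]
        exact (hYW.S_meas e.1).inter (hℓ γ' b)
      · have : U γ' = ∅ := by
          ext x
          simp [hUdef, hg]
        rw [this]
        exact MeasurableSet.empty
    -- the events coincide almost everywhere
    have hae : ∀ᵐ ω ∂(k4wiLaw (c.last.P k) Gd), ω.2 ∈ (c.last.P k).Ev ω.1.1 := by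
      rw [ae_iff]
      exact k4wi_law_zero (c.last.P k) Gd hl _ fun ω hω => hω
    have hev : k4wiLaw (c.last.P k) Gd (c.k4wiA k Gd m ⁻¹' {γ} ∩ c.k4wiE k Gd m i ⁻¹' {e} ∩ c.k4wiL k Gd m ℓ ⁻¹' {b})
        = k4wiLaw (c.last.P k) Gd {ω | c.k4wiX k Gd m ω ∈ U (c.k4wiA k Gd m ω)} := by
      apply measure_congr
      rw [Filter.eventuallyEq_set]
      filter_upwards [hae] with ω hω
      have hS := k4c_at_lab_S c k hc m i hi ω.1.1 ω.2 hω
      have hwd := k4c_at_lab_wd c k m i ω.1.1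
      constructor
      · rintro ⟨⟨h1, h2⟩, h3⟩
        have h1' : c.k4wiA k Gd m ω = γ := h1
        have h2' : c.labAt m i k ω.1.1 = e.1 := congrArg Subtype.val h2
        have h3' : ℓ (c.k4wiA k Gd m ω) (c.k4wiX k Gd m ω) = b := h3
        refine ⟨h1', ?_, h3'⟩
        rw [← h2']
        exact hS
      · rintro ⟨h1, h2, h3⟩
        have h2' : c.incAt m k ω.1.1 ω.2 ∈ ((c.drop m).sys i k).S e.1 := h2
        have h4 : c.labAt m i k ω.1.1 = e.1 := by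
          by_contra hne
          have a1 := hYW.S_sub _ hS
          have a2 := hYW.S_sub _ h2'
          have hiv : ((c.drop m).sys i k).iv (c.labAt m i k ω.1.1) = ((c.drop m).sys i k).iv e.1 := k4c_kbI_inj a1.2.2 a2.2.2
          have hww : ((c.drop m).sys i k).wd (c.labAt m i k ω.1.1) = ((c.drop m).sys i k).wd e.1 := by
            rw [hwd, hw]
            exact h1
          exact Set.disjoint_left.1 (hYW.A_disj _ _ hne hww hiv) a1.2.1 a2.2.1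
        exact ⟨⟨h1, Subtype.ext h4⟩, h3⟩
    have hpush := k4wi_push c k Gd hc m U hU
    have hmass : ((c.prob m).P k).mass (fun γ' => U γ' ∩ c.pthAt m k Gd γ')
        = ((c.prob m).P k).om γ * ((c.prob m).P k).mu γ (c.pthAt m k Gd γ ∩ (c.k4wiQ k Gd m i).S e ∩ ℓ γ ⁻¹' {b}) := by
      unfold KbPb.mass
      rw [Finset.sum_eq_single γ]
      · congr 2
        ext x
        simp only [hUdef, K4cCh.k4wiQ, KbSys.restr, Set.mem_inter_iff, Set.mem_ofPred_eq, Set.mem_univ, and_true, Set.mem_preimage, Set.mem_singleton_iff, true_and]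
        tauto
      · intro γ' _ hg
        have : U γ' ∩ c.pthAt m k Gd γ' = ∅ := by
          ext x
          simp [hUdef, hg]
        show ((c.prob m).P k).om γ' * ((c.prob m).P k).mu γ' (U γ' ∩ c.pthAt m k Gd γ') = 0
        rw [this, measure_empty, mul_zero]
      · intro h
        exact absurd (Finset.mem_univ γ) h
    have hP := k4wi_dict_P c k Gd hc m γ
    set om := ((c.prob m).P k).om γ with hom
    set a := ((c.prob m).P k).mu γ (c.pthAt m k Gd γ ∩ (c.k4wiQ k Gd m i).S e ∩ ℓ γ ⁻¹' {b}) with ha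
    set p := ((c.prob m).P k).mu γ (c.pthAt m k Gd γ) with hpd
    set M := ((c.prob m).P k).mass (c.pthAt m k Gd) with hM
    have hx : (om * p / M).toReal ≠ 0 := by
      have : kpWt ((c.prob m).P k) (c.pthAt m k Gd) γ = (om * p / M).toReal := rfl
      rw [← this, hP]
      exact hp
    have hx0 : om * p / M ≠ 0 := fun h => hx (by rw [h]; rfl)
    have hx1 : om * p ≠ 0 ∧ M ≠ ⊤ := by
      constructor
      · intro h
        exact hx0 (by rw [h, ENNReal.zero_div])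
      · intro h
        exact hx0 (by rw [h, ENNReal.div_top])
    have hle : om * p ≤ M := by
      rw [hM]
      unfold KbPb.mass
      exact Finset.single_le_sum (f := fun γ' => ((c.prob m).P k).om γ' * ((c.prob m).P k).mu γ' (c.pthAt m k Gd γ')) (fun _ _ => zero_le) (Finset.mem_univ γ)
    have hom0 : om ≠ 0 := fun h => hx1.1 (by rw [h, zero_mul])
    have hp0 : p ≠ 0 := fun h => hx1.1 (by rw [h, mul_zero])
    have hopT : om * p ≠ ⊤ := ne_top_of_le_ne_top hx1.2 hle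
    have homT : om ≠ ⊤ := fun h => hopT (by rw [h, ENNReal.top_mul hp0])
    have hpT : p ≠ ⊤ := fun h => hopT (by rw [h, ENNReal.mul_top hom0])
    have hM0 : M ≠ 0 := fun h => hx1.1 (le_antisymm (h ▸ hle) zero_le)
    have hL : kpJt ((c.prob m).P k) (c.pthAt m k Gd) (c.k4wiQ k Gd m i) ℓ γ e b = (a / p).toReal := by
      unfold kpJt
      rw [if_pos (show (c.k4wiQ k Gd m i).wd e = γ from hw)]
    have hR : k4cR (k4wiLaw (c.last.P k) Gd) (c.k4wiA k Gd m) (c.k4wiE k Gd m i) (c.k4wiL k Gd m ℓ) γ e b = (om * a / M).toReal / (om * p / M).toReal := by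
      unfold k4cR
      have h1 : (k4wiLaw (c.last.P k) Gd).real (c.k4wiA k Gd m ⁻¹' {γ}) = (om * p / M).toReal := hP.symm
      rw [h1]
      congr 1
      unfold Measure.real
      rw [hev, hpush, hmass]
    rw [hL, hR]
    simp only [ENNReal.toReal_div, ENNReal.toReal_mul]
    have e1 : om.toReal ≠ 0 := (ENNReal.toReal_pos hom0 homT).ne'
    have e2 : p.toReal ≠ 0 := (ENNReal.toReal_pos hp0 hpT).ne'
    have e3 : M.toReal ≠ 0 := (ENNReal.toReal_pos hM0 hx1.2).ne'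
    field_simp
  · have hL : kpJt ((c.prob m).P k) (c.pthAt m k Gd) (c.k4wiQ k Gd m i) ℓ γ e b = 0 := by
      unfold kpJt
      rw [if_neg (show ¬ (c.k4wiQ k Gd m i).wd e = γ from hw)]
    have hemp : c.k4wiA k Gd m ⁻¹' {γ} ∩ c.k4wiE k Gd m i ⁻¹' {e} ∩ c.k4wiL k Gd m ℓ ⁻¹' {b} = ∅ := by
      ext ω
      simp only [Set.mem_empty_iff_false, iff_false]
      rintro ⟨⟨h1, h2⟩, -⟩
      have h1' : c.ancAt m k ω.1.1 = γ := h1
      have h2' : c.labAt m i k ω.1.1 = e.1 := congrArg Subtype.val h2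
      apply hw
      rw [← h2', k4c_at_lab_wd, h1']
    rw [hL]
    unfold k4cR
    rw [hemp]
    simp

/-- I4c.  **the dictionary.**   PROOF.  `unfold k4cInfo k4Info`; `Finset.sum_congr`; for every `γ`: rewrite `kpWt` by I4a; if `k4cP .. γ = 0` both terms vanish, otherwise the functions `kpJt .. γ` and `k4cR .. γ` coincide (I4b, `funext`), hence also `k4Pre`, `k4Pi` at `γ` (`unfold`, `Finset.sum_congr`). -/
theorem k4wi_dict (hc : c.WFat k) (hl : (c.last.P k).WF) (m i : ℕ) (hi : m + i < c.len) {β : Type} [Fintype β] (ℓ : ((c.prob m).P k).Lab β) (hℓ : ((c.prob m).P k).LabMeas ℓ) :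
    k4Info (kpWt ((c.prob m).P k) (c.pthAt m k Gd)) (kpJt ((c.prob m).P k) (c.pthAt m k Gd) (c.k4wiQ k Gd m i) ℓ)
      = k4cInfo (k4wiLaw (c.last.P k) Gd) (c.k4wiA k Gd m) (c.k4wiE k Gd m i) (c.k4wiL k Gd m ℓ) := by
  unfold k4cInfo k4Info
  refine Finset.sum_congr rfl fun γ _ => ?_
  rw [k4wi_dict_P c k Gd hc m γ]
  by_cases hp : k4cP (k4wiLaw (c.last.P k) Gd) (c.k4wiA k Gd m) γ = 0
  · rw [hp, zero_mul, zero_mul]
  · have hR : ∀ e b, kpJt ((c.prob m).P k) (c.pthAt m k Gd) (c.k4wiQ k Gd m i) ℓ γ e b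
        = k4cR (k4wiLaw (c.last.P k) Gd) (c.k4wiA k Gd m) (c.k4wiE k Gd m i) (c.k4wiL k Gd m ℓ) γ e b :=
      fun e b => k4wi_dict_R c k Gd hc hl m i hi ℓ hℓ γ hp e b
    congr 1
    refine Finset.sum_congr rfl fun e _ => Finset.sum_congr rfl fun b _ => ?_
    have h1 : k4Pre (kpJt ((c.prob m).P k) (c.pthAt m k Gd) (c.k4wiQ k Gd m i) ℓ) γ e
        = k4Pre (k4cR (k4wiLaw (c.last.P k) Gd) (c.k4wiA k Gd m) (c.k4wiE k Gd m i) (c.k4wiL k Gd m ℓ)) γ e := by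
      unfold k4Pre
      exact Finset.sum_congr rfl fun b' _ => hR e b'
    have h2 : k4Pi (kpJt ((c.prob m).P k) (c.pthAt m k Gd) (c.k4wiQ k Gd m i) ℓ) γ b
        = k4Pi (k4cR (k4wiLaw (c.last.P k) Gd) (c.k4wiA k Gd m) (c.k4wiE k Gd m i) (c.k4wiL k Gd m ℓ)) γ b := by
      unfold k4Pi
      exact Finset.sum_congr rfl fun e' _ => hR e' b
    rw [h1, h2, hR e b]

/-! ## 6. LEAF I5 : the options of the palette bin (~300 l.) -/

/-- floors of two reals at distance `≤ Λ' D` (helper of I5) -/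
theorem k4wi_opt_floor {x y D Λ' : ℝ} (hD : 0 < D) (hΛ : 0 ≤ Λ') (h : |x - y| ≤ Λ' * D) : |⌊x / D⌋ - ⌊y / D⌋| ≤ (⌊Λ'⌋₊ : ℤ) + 1 := by
  have h1 : |x / D - y / D| ≤ Λ' := by
    rw [← sub_div, abs_div, abs_of_pos hD, div_le_iff₀ hD]
    exact h
  obtain ⟨h2, h3⟩ := abs_le.1 h1
  have a1 := Int.floor_le (x / D)
  have a2 := Int.lt_floor_add_one (x / D)
  have b1 := Int.floor_le (y / D)
  have b2 := Int.lt_floor_add_one (y / D)
  have hn := Nat.lt_floor_add_one Λ'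
  rw [abs_le]
  constructor
  · have : (-((⌊Λ'⌋₊ : ℤ) + 1) - 1 : ℝ) < ((⌊x / D⌋ - ⌊y / D⌋ : ℤ) : ℝ) := by
      push_cast
      linarith
    have h4 : (-((⌊Λ'⌋₊ : ℤ) + 1) - 1 : ℤ) < ⌊x / D⌋ - ⌊y / D⌋ := by exact_mod_cast this
    omega
  · have : ((⌊x / D⌋ - ⌊y / D⌋ : ℤ) : ℝ) < (((⌊Λ'⌋₊ : ℤ) + 1) + 1 : ℝ) := by
      push_cast
      linarith
    have h4 : ⌊x / D⌋ - ⌊y / D⌋ < ((⌊Λ'⌋₊ : ℤ) + 1) + 1 := by exact_mod_cast this
    omega

/-- the palette variable is additive (helper of I5) -/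
theorem k4wi_opt_pv_sub (p : KpPrm) (V V' : KbB v) : kpPv p (V - V') = kpPv p V - kpPv p V' := by
  unfold kpPv
  split_ifs with h
  · funext i
    by_cases hi : (i : ℕ) = 0
    · simp [hi]
    · simp [hi]
  · rfl

/-- an incidence of the deepest problem lies on a trajectory of the support of its parent (helper of I5) -/
theorem k4wi_opt_sp (hc : c.WFat k) (m : ℕ) (hm : m < c.len) (d : (c.last.P k).W) (x : (c.last.P k).Lam × ℝ) (hx : x ∈ (c.last.P k).Ev d) :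
    c.lamAt m k x.1 ∈ ((c.prob m).P k).Sp (c.ancAt m k d) := by
  have hd : (c.drop m).WFat k := k4c_all_drop c _ hc m
  have hlen : 0 < (c.drop m).len := by rw [k4c_len_drop]; omega
  have hW := k4c_ch_WF (c.drop m) k hd 0 hlen
  have h1 := k4c_at_lab_S c k hc m 0 (by omega) d x hx
  have h2 := (hW.S_sub _ h1).2.1
  have h3 := hW.A_sub _ h2
  rw [k4c_at_lab_wd, k4c_at_inc_fst] at h3
  exact h3

/-- the root velocity through the parent (helper of I5) -/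
theorem k4wi_opt_rv (m : ℕ) (d : (c.last.P k).W) (l : (c.last.P k).Lam) : (c.ancProb m).rv k (c.ancAt m k d) (c.lamAt m k l) = c.k4wiRv k d l := by
  show kbV ((E.P k).co (c.ancW m k (c.ancAt m k d)) (c.lamW m k (c.lamAt m k l))) = kbV ((E.P k).co (c.anc k d) (c.lam k l))
  rw [k4w_ancW_ancAt, k4w_lamW_lamAt]

/-- two incidences with the same parent and the same root bin have palette bins at distance `≤ ⌊2Λ⌋ + 1` (helper of I5) -/
theorem k4wi_opt_key (hc : c.WFat k) (m : ℕ) (hm : m < c.len) (p : KpPrm) (fr : ∀ k, ((c.prob m).P k).W → Matrix (Fin v.j) (Fin v.j) ℝ) (Λ b : ℝ) (hΛ : 0 ≤ Λ) (hb : 0 < b)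
    (Mr : ℕ) (hgood : ∀ d ∈ Gd, c.ancAt m k d ∉ (c.ancProb m).lipBad p fr Λ k)
    (hrng : ∀ d ∈ Gd, ∀ x ∈ (c.last.P k).Ev d, ∀ i, |kbBin b (c.k4wiRv k d x.1 i)| ≤ (Mr : ℤ))
    (ω ω₀ : K4wiOm (c.last.P k) Gd) (γ : ((c.prob m).P k).W) (hA : c.k4wiA k Gd m ω = γ) (hA0 : c.k4wiA k Gd m ω₀ = γ)
    (hV : c.k4wiV k Gd b Mr ω = c.k4wiV k Gd b Mr ω₀) (hE : ω.2 ∈ (c.last.P k).Ev ω.1.1) (hE0 : ω₀.2 ∈ (c.last.P k).Ev ω₀.1.1) (i : Fin v.j) :
    |kpVb ((c.prob m).P k) p (fr k) b γ (c.k4wiX k Gd m ω) i - kpVb ((c.prob m).P k) p (fr k) b γ (c.k4wiX k Gd m ω₀) i| ≤ (⌊2 * Λ⌋₊ : ℤ) + 1 := by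
  have hA' : c.ancAt m k ω.1.1 = γ := hA
  have hA0' : c.ancAt m k ω₀.1.1 = γ := hA0
  obtain ⟨hD1, -⟩ := k4c_dy_bounds hb
  have hD : 0 < kbDy b := lt_of_lt_of_le hb hD1
  -- the trajectories
  have s1 : c.lamAt m k ω.2.1 ∈ ((c.prob m).P k).Sp γ := hA' ▸ k4wi_opt_sp c k hc m hm ω.1.1 ω.2 hE
  have s2 : c.lamAt m k ω₀.2.1 ∈ ((c.prob m).P k).Sp γ := hA0' ▸ k4wi_opt_sp c k hc m hm ω₀.1.1 ω₀.2 hE0
  have r1 : (c.ancProb m).rv k γ (c.lamAt m k ω.2.1) = c.k4wiRv k ω.1.1 ω.2.1 := hA' ▸ k4wi_opt_rv c k m ω.1.1 ω.2.1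
  have r2 : (c.ancProb m).rv k γ (c.lamAt m k ω₀.2.1) = c.k4wiRv k ω₀.1.1 ω₀.2.1 := hA0' ▸ k4wi_opt_rv c k m ω₀.1.1 ω₀.2.1
  -- the root velocities are close
  have hrv : ‖c.k4wiRv k ω.1.1 ω.2.1 - c.k4wiRv k ω₀.1.1 ω₀.2.1‖ ≤ kbDy b := by
    rw [pi_norm_le_iff_of_nonneg hD.le]
    intro i'
    have e1 : kpClamp Mr (kbBin b (c.k4wiRv k ω.1.1 ω.2.1 i')) = kpClamp Mr (kbBin b (c.k4wiRv k ω₀.1.1 ω₀.2.1 i')) := congrFun hV i'
    have e2 := k4c_clamp_inj Mr _ _ (hrng _ ω.1.2 _ hE i') (hrng _ ω₀.1.2 _ hE0 i') e1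
    have e3 := Int.abs_sub_lt_one_of_floor_eq_floor e2
    rw [← sub_div, abs_div, abs_of_pos hD, div_lt_one hD] at e3
    rw [Pi.sub_apply, Real.norm_eq_abs]
    exact e3.le
  -- the Lipschitz bound
  have hg : ‖kpPv p ((fr k γ).mulVec (kbV (((c.prob m).P k).co γ (c.lamAt m k ω.2.1)) - kbV (((c.prob m).P k).co γ (c.lamAt m k ω₀.2.1))))‖
      ≤ Λ * ‖(c.ancProb m).rv k γ (c.lamAt m k ω.2.1) - (c.ancProb m).rv k γ (c.lamAt m k ω₀.2.1)‖ := by
    by_contra hcon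
    exact hgood _ ω.1.2 (hA'.symm ▸ ⟨_, s1, _, s2, not_le.1 hcon⟩)
  rw [r1, r2, Matrix.mulVec_sub, k4wi_opt_pv_sub] at hg
  have hi := (norm_le_pi_norm _ i).trans hg
  rw [Pi.sub_apply, Real.norm_eq_abs] at hi
  have hfin : |kpPv p ((fr k γ).mulVec (kbV (((c.prob m).P k).co γ (c.lamAt m k ω.2.1)))) i - kpPv p ((fr k γ).mulVec (kbV (((c.prob m).P k).co γ (c.lamAt m k ω₀.2.1)))) i|
      ≤ 2 * Λ * kbDy b := by
    refine hi.trans ?_
    have := mul_le_mul_of_nonneg_left hrv hΛ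
    nlinarith [mul_nonneg hΛ hD.le]
  have := k4wi_opt_floor hD (by positivity : (0 : ℝ) ≤ 2 * Λ) hfin
  have x1 : (c.k4wiX k Gd m ω).1 = c.lamAt m k ω.2.1 := k4c_at_inc_fst c k m ω.1.1 ω.2
  have x2 : (c.k4wiX k Gd m ω₀).1 = c.lamAt m k ω₀.2.1 := k4c_at_inc_fst c k m ω₀.1.1 ω₀.2
  unfold kpVb kbBin
  rw [x1, x2]
  exact this

/-- **given the parent and the bin of the root velocity, the palette bin of the same mesh has at most `(2 (⌊2Λ⌋ + 1) + 1)^j` options.**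
PROOF.  Fix `s0 = (γ, b0)`.   `G := {ω | A ω = γ ∧ V ω = b0 ∧ ω.2 ∈ Ev ω.1.1}`.   If `G = ∅` take `L = ∅` (`k4wi_law_zero`).   Otherwise fix `ω₀ ∈ G`, `z₀ i := kpVb F p (fr k) b γ (X ω₀) i`, `r := ⌊2Λ⌋₊ + 1`,
`L := (Fintype.piFinset fun i => Finset.Icc (z₀ i - r) (z₀ i + r)).image fun z i => kpClamp Mb (z i)`;  `card ≤ ∏ (2 r + 1)` (`Finset.card_image_le`, `Fintype.card_piFinset`, `Int.card_Icc`).
For `ω ∈ G` : (1) `X ω ∈ F.Ev γ`, so `(X ω).1 ∈ F.Sp γ` (`k4c_at_lab_S` at the node `0` (`hm`), `WF.S_sub`, `k4c_at_lab_wd`, `KbPb.WF.Ev_sub` of `F`: the first component of `WFat` of `c.drop m`);   `(X ω).1 = c.lamAt m k ω.2.1` (`k4c_at_inc_fst`);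
(2) `(c.ancProb m).rv k γ (lamAt l) = c.k4wiRv k d l` (`k4w_ancW_ancAt`, `k4w_lamW_lamAt`);   (3) `V ω = V ω₀` and `hrng`, `k4c_clamp_inj` : the UNCLAMPED root bins coincide, so `|rv i - rv₀ i| < kbDy b ≤ 2 b` (`Int.floor` bounds, `k4c_dy_bounds`), `‖rv - rv₀‖ ≤ 2 b` (`pi_norm_le_iff_of_nonneg`);
(4) `hgood` (`not_exists`, `not_lt`) : `‖kpPv p (fr γ (V - V₀))‖ ≤ Λ * 2 b`;  `kpPv p` and `mulVec` are additive (`Matrix.mulVec_sub`; `kpPv` by cases);   (5) with `D = kbDy b ≥ b` : `|pv i / D - pv₀ i / D| ≤ 2Λ`, so `|⌊·⌋ - ⌊·⌋| ≤ ⌊2Λ⌋₊ + 1`.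
Hence `w ω ∈ L`;  for `b' ∉ L` the event `(A, V, w) = (γ, b0, b')` misses `{ω.2 ∈ Ev}` : `k4wi_law_zero`. -/
theorem k4wi_opt (hc : c.WFat k) (hl : (c.last.P k).WF) (m : ℕ) (hm : m < c.len) (p : KpPrm) (fr : ∀ k, ((c.prob m).P k).W → Matrix (Fin v.j) (Fin v.j) ℝ) (Λ b : ℝ) (hΛ : 0 ≤ Λ) (hb : 0 < b)
    (Mr Mb : ℕ) (hgood : ∀ d ∈ Gd, c.ancAt m k d ∉ (c.ancProb m).lipBad p fr Λ k)
    (hrng : ∀ d ∈ Gd, ∀ x ∈ (c.last.P k).Ev d, ∀ i, |kbBin b (c.k4wiRv k d x.1 i)| ≤ (Mr : ℤ)) :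
    KsOpt (k4wiLaw (c.last.P k) Gd) (ksPair (c.k4wiA k Gd m) (c.k4wiV k Gd b Mr)) (c.k4wiL k Gd m (k4wiPb ((c.prob m).P k) p (fr k) b Mb)) (k4wiN v Λ) := by
  classical
  rintro ⟨γ, b0⟩
  by_cases hG : ∃ ω₀ : K4wiOm (c.last.P k) Gd, c.k4wiA k Gd m ω₀ = γ ∧ c.k4wiV k Gd b Mr ω₀ = b0 ∧ ω₀.2 ∈ (c.last.P k).Ev ω₀.1.1
  · obtain ⟨ω₀, hA0, hV0, hE0⟩ := hG
    refine ⟨(Fintype.piFinset fun i => Finset.Icc (kpVb ((c.prob m).P k) p (fr k) b γ (c.k4wiX k Gd m ω₀) i - ((⌊2 * Λ⌋₊ : ℤ) + 1))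
      (kpVb ((c.prob m).P k) p (fr k) b γ (c.k4wiX k Gd m ω₀) i + ((⌊2 * Λ⌋₊ : ℤ) + 1))).image fun z i => kpClamp Mb (z i), ?_, ?_⟩
    · refine Finset.card_image_le.trans ?_
      rw [Fintype.card_piFinset]
      have hcard : ∀ i : Fin v.j, (Finset.Icc (kpVb ((c.prob m).P k) p (fr k) b γ (c.k4wiX k Gd m ω₀) i - ((⌊2 * Λ⌋₊ : ℤ) + 1))
          (kpVb ((c.prob m).P k) p (fr k) b γ (c.k4wiX k Gd m ω₀) i + ((⌊2 * Λ⌋₊ : ℤ) + 1))).card = 2 * (⌊2 * Λ⌋₊ + 1) + 1 := by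
        intro i
        rw [Int.card_Icc]
        omega
      rw [Finset.prod_congr rfl fun i _ => hcard i, Finset.prod_const, Finset.card_univ, Fintype.card_fin]
      exact le_rfl
    · intro d0 hd0
      refine k4wi_law_zero _ _ hl _ fun ω hω hEv => hd0 ?_
      have hω' : ((c.k4wiA k Gd m ω, c.k4wiV k Gd b Mr ω), c.k4wiL k Gd m (k4wiPb ((c.prob m).P k) p (fr k) b Mb) ω) = ((γ, b0), d0) := hω
      have hA : c.k4wiA k Gd m ω = γ := congrArg (fun x => x.1.1) hω'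
      have hV : c.k4wiV k Gd b Mr ω = b0 := congrArg (fun x => x.1.2) hω'
      have hw : c.k4wiL k Gd m (k4wiPb ((c.prob m).P k) p (fr k) b Mb) ω = d0 := congrArg Prod.snd hω'
      rw [Finset.mem_image]
      refine ⟨fun i => kpVb ((c.prob m).P k) p (fr k) b γ (c.k4wiX k Gd m ω) i, ?_, ?_⟩
      · rw [Fintype.mem_piFinset]
        intro i
        have := k4wi_opt_key c k Gd hc m hm p fr Λ b hΛ hb Mr hgood hrng ω ω₀ γ hA hA0 (hV.trans hV0.symm) hEv hE0 i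
        rw [abs_le] at this
        rw [Finset.mem_Icc]
        constructor <;> linarith [this.1, this.2]
      · rw [← hw]
        show (fun i => kpClamp Mb (kpVb ((c.prob m).P k) p (fr k) b γ (c.k4wiX k Gd m ω) i))
          = fun i => kpClamp Mb (kpVb ((c.prob m).P k) p (fr k) b (c.k4wiA k Gd m ω) (c.k4wiX k Gd m ω) i)
        rw [hA]
  · refine ⟨∅, by simp, fun d0 _ => k4wi_law_zero _ _ hl _ fun ω hω hEv => hG ⟨ω, ?_, ?_, hEv⟩⟩
    · exact congrArg (fun x : (_ × _) × _ => x.1.1) (show ((c.k4wiA k Gd m ω, c.k4wiV k Gd b Mr ω), _) = ((γ, b0), d0) from hω)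
    · exact congrArg (fun x : (_ × _) × _ => x.1.2) (show ((c.k4wiA k Gd m ω, c.k4wiV k Gd b Mr ω), _) = ((γ, b0), d0) from hω)

/-! ## 7. LEAF I6 : the range of the root bins (~100 l.) -/

/-- PROOF.  `k4c_ch_inc_Ev hc d x hx`, `hE.Ev_sub`, `k4c_ch_inc_fst` : `c.lam k x.1 ∈ (E.P k).Sp (c.anc k d)`;  `hntv.base .. 0` : `‖V‖ ≤ K`, `|V i| ≤ ‖V‖` (`norm_le_pi_norm`);  `kbBin b y = ⌊y / kbDy b⌋`, `b ≤ kbDy b` : `|y / kbDy b| ≤ K / b`;  `|⌊z⌋| ≤ |z| + 1`;  cast to `ℤ` (`Int.cast_le`, `Int.cast_abs`). -/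
theorem k4wi_rng (hc : c.WFat k) (hE : (E.P k).WF) (K b : ℝ) (hntv : (E.P k).Ntv K) (hb : 0 < b) (Mr : ℕ) (hMr : K / b + 1 ≤ Mr) :
    ∀ d, ∀ x ∈ (c.last.P k).Ev d, ∀ i, |kbBin b (c.k4wiRv k d x.1 i)| ≤ (Mr : ℤ) := by
  intro d x hx i
  have h1 := k4c_ch_inc_Ev c k hc d x hx
  have h2 := (hE.Ev_sub _ h1).1
  rw [k4c_ch_inc_fst] at h2
  have h3 := hntv.base _ _ h2 0 ⟨le_rfl, zero_le_one⟩
  have h4 : ‖kbV ((E.P k).co (c.anc k d) (c.lam k x.1))‖ ≤ K := by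
    have := norm_nonneg (kbY ((E.P k).co (c.anc k d) (c.lam k x.1)) 0)
    linarith
  have hK0 : 0 ≤ K := (norm_nonneg _).trans h4
  have h5 : |c.k4wiRv k d x.1 i| ≤ K := by
    have := norm_le_pi_norm (kbV ((E.P k).co (c.anc k d) (c.lam k x.1))) i
    rw [Real.norm_eq_abs] at this
    exact this.trans h4
  obtain ⟨hD1, -⟩ := k4c_dy_bounds hb
  have hD0 : 0 < kbDy b := lt_of_lt_of_le hb hD1
  have h6 : |c.k4wiRv k d x.1 i / kbDy b| ≤ K / b := by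
    rw [abs_div, abs_of_pos hD0]
    calc |c.k4wiRv k d x.1 i| / kbDy b ≤ K / kbDy b := div_le_div_of_nonneg_right h5 hD0.le
      _ ≤ K / b := div_le_div_of_nonneg_left hK0 hb hD1
  obtain ⟨h7, h8⟩ := abs_le.1 h6
  unfold kbBin
  rw [abs_le]
  constructor
  · rw [Int.le_floor]
    push_cast
    linarith
  · have h9 := Int.floor_le (c.k4wiRv k d x.1 i / kbDy b)
    have h10 : ((⌊c.k4wiRv k d x.1 i / kbDy b⌋ : ℤ) : ℝ) ≤ ((Mr : ℤ) : ℝ) := by
      push_cast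
      linarith
    exact_mod_cast h10

end labels

/-! ## 8. LEAF I7 : numerics (~200 l.) -/

theorem k4wi_num_log (j c : ℕ) (hj : j ≤ 2) (Y : ℝ) (_hY : 1 ≤ Y) (hc : (c : ℝ) ≤ Y) (hc1 : 1 ≤ c) : Real.log ((c ^ j : ℕ) : ℝ) ≤ 2 * Real.log Y := by
  have hc0 : (1 : ℝ) ≤ c := by exact_mod_cast hc1
  have h1 : Real.log c ≤ Real.log Y := Real.log_le_log (by linarith) hc
  have h0 : 0 ≤ Real.log c := Real.log_nonneg hc0
  push_cast
  rw [Real.log_pow]
  have hj' : (j : ℝ) ≤ 2 := by exact_mod_cast hj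
  nlinarith

theorem k4wi_num_pt (j : ℕ) (hj : j ≤ 2) (N ε U ι ζc : ℝ) (M : ℕ) (hN : 2 ≤ N) (hε : 0 < ε) (hU : 0 ≤ U) (hι : 0 < ι) (hζ : 0 < ζc) (hζι : 16 * ζc ≤ ι * ε)
    (hM : 4 * (U + 4) ≤ ι * M) (h1 : ι * Real.log 5 / 8 + 2 * Real.log 7 ≤ ι * ε * Real.log N / 4) (h2 : 2 ≤ N ^ (ε / 2)) :
    Real.log (((2 * ⌈N ^ (ε * (U + 1))⌉₊ + 1) ^ j : ℕ) : ℝ) / M + Real.log (((2 * (⌊2 * N ^ (ζc + ι * ε / 16)⌋₊ + 1) + 1) ^ j : ℕ) : ℝ) ≤ ι * (ε * Real.log N) ∧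
      N ^ (ε / 2) / N ^ (-(ε * U)) + 1 ≤ (⌈N ^ (ε * (U + 1))⌉₊ : ℝ) := by
  have hN0 : 0 < N := by linarith
  have hN1 : 1 ≤ N := by linarith
  have hL : 0 ≤ Real.log N := Real.log_nonneg hN1
  have hX : 1 ≤ N ^ (ε * (U + 1)) := Real.one_le_rpow hN1 (by positivity)
  have hΛ : 1 ≤ N ^ (ζc + ι * ε / 16) := Real.one_le_rpow hN1 (by positivity)
  have hM0 : (0 : ℝ) < M := by
    by_contra hcon
    have : (M : ℝ) = 0 := le_antisymm (not_lt.1 hcon) (Nat.cast_nonneg _)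
    rw [this] at hM
    nlinarith
  constructor
  · -- first term
    have a1 : Real.log (((2 * ⌈N ^ (ε * (U + 1))⌉₊ + 1) ^ j : ℕ) : ℝ) ≤ 2 * Real.log (5 * N ^ (ε * (U + 1))) := by
      refine k4wi_num_log j _ hj _ (by linarith) ?_ (by omega)
      have := (Nat.ceil_lt_add_one (by linarith : 0 ≤ N ^ (ε * (U + 1)))).le
      push_cast
      linarith
    have a2 : Real.log (5 * N ^ (ε * (U + 1))) = Real.log 5 + ε * (U + 1) * Real.log N := by
      rw [Real.log_mul (by norm_num) (by positivity), Real.log_rpow hN0]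
    have b1 : Real.log (((2 * (⌊2 * N ^ (ζc + ι * ε / 16)⌋₊ + 1) + 1) ^ j : ℕ) : ℝ) ≤ 2 * Real.log (7 * N ^ (ζc + ι * ε / 16)) := by
      refine k4wi_num_log j _ hj _ (by linarith) ?_ (by omega)
      have := Nat.floor_le (by linarith : 0 ≤ 2 * N ^ (ζc + ι * ε / 16))
      push_cast
      linarith
    have b2 : Real.log (7 * N ^ (ζc + ι * ε / 16)) = Real.log 7 + (ζc + ι * ε / 16) * Real.log N := by
      rw [Real.log_mul (by norm_num) (by positivity), Real.log_rpow hN0]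
    have h5 : 0 ≤ Real.log 5 := Real.log_nonneg (by norm_num)
    -- division by M
    have a3 : Real.log (((2 * ⌈N ^ (ε * (U + 1))⌉₊ + 1) ^ j : ℕ) : ℝ) / M ≤ ι * Real.log 5 / 8 + ι * ε * Real.log N / 2 := by
      rw [div_le_iff₀ hM0]
      rw [a2] at a1
      refine a1.trans ?_
      have e1 : ι * Real.log 5 / 8 * M = Real.log 5 / 8 * (ι * M) := by ring
      have e2 : ι * ε * Real.log N / 2 * M = ε * Real.log N / 2 * (ι * M) := by ring
      rw [add_mul, e1, e2]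
      have c1 : Real.log 5 / 8 * (4 * (U + 4)) ≤ Real.log 5 / 8 * (ι * M) := mul_le_mul_of_nonneg_left hM (by positivity)
      have c2 : ε * Real.log N / 2 * (4 * (U + 4)) ≤ ε * Real.log N / 2 * (ι * M) := mul_le_mul_of_nonneg_left hM (by positivity)
      have c3 : 0 ≤ Real.log 5 * U := by positivity
      have c4 : 0 ≤ ε * Real.log N := by positivity
      nlinarith
    have b3 : (ζc + ι * ε / 16) * Real.log N ≤ ι * ε / 8 * Real.log N := mul_le_mul_of_nonneg_right (by linarith) hL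
    rw [b2] at b1
    nlinarith
  · have e1 : N ^ (ε / 2) / N ^ (-(ε * U)) = N ^ (ε * U + ε / 2) := by
      rw [← Real.rpow_sub hN0]; congr 1; ring
    have e2 : N ^ (ε * (U + 1)) = N ^ (ε * U + ε / 2) * N ^ (ε / 2) := by
      rw [← Real.rpow_add hN0]; congr 1; ring
    have h3 : 1 ≤ N ^ (ε * U + ε / 2) := Real.one_le_rpow hN1 (by positivity)
    have h4 := Nat.le_ceil (N ^ (ε * (U + 1)))
    rw [e1]
    refine le_trans ?_ h4
    rw [e2]
    nlinarith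

/-- PROOF.  `N := Rr.N k → ∞` along `uf` (`kb_rpow_tendsto`, `k4b_log_tendsto`).   `card = (2 ⌈X⌉₊ + 1)^j` (`Fintype.card_fun`/`Fintype.card_pi`, `Fintype.card_fin`), `X = N^{ε (U+1)} ≥ 1`, `2 ⌈X⌉₊ + 1 ≤ 5 X`, `j = v.j ≤ 2` (cases on `v`):
`log card ≤ 2 (ε (U+1) log N + log 5)`;  `1 / M ≤ ι / (4 (U+4))` : first term `≤ ι ε log N / 2 + ι log 5 / 8`.   `k4wiN v Λ ≤ (7 Λ)^2`, `Λ = N^{ζc + ι ε / 16} ≥ 1` : second term `≤ 2 (ζc + ι ε / 16) log N + 2 log 7 ≤ ι ε log N / 4 + 2 log 7`.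
Eventually `ι log 5 / 8 + 2 log 7 ≤ ι ε log N / 4`.      Second claim: `N^{ε/2} / N^{-(ε U)} = N^{ε (U + 1/2)}`, `N^{ε (U+1)} = N^{ε (U + 1/2)} N^{ε/2}`, `N^{ε/2} ≥ 2` eventually; `Nat.le_ceil`. -/
theorem k4wi_num (v : KbVer) (Rr : KbRes) (ε U ι ζc : ℝ) (M : ℕ) (hε : 0 < ε) (hU : 0 ≤ U) (hι : 0 < ι) (hζ : 0 < ζc) (hζι : 16 * ζc ≤ ι * ε) (hM : 4 * (U + 4) ≤ ι * M) :
    ∀ᶠ k in uf, Real.log (Fintype.card (Fin v.j → Fin (2 * ⌈Rr.N k ^ (ε * (U + 1))⌉₊ + 1))) / M + Real.log (k4wiN v (Rr.N k ^ (ζc + ι * ε / 16))) ≤ ι * (ε * Real.log (Rr.N k)) ∧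
      Rr.N k ^ (ε / 2) / Rr.N k ^ (-(ε * U)) + 1 ≤ (⌈Rr.N k ^ (ε * (U + 1))⌉₊ : ℝ) := by
  have hj : v.j ≤ 2 := by cases v <;> simp [KbVer.j]
  filter_upwards [Rr.lim.eventually_ge_atTop (max (Real.exp (4 * (ι * Real.log 5 / 8 + 2 * Real.log 7) / (ι * ε))) ((2 : ℝ) ^ (2 / ε)))] with k hk
  have hN := Rr.two_le k
  have hN0 : 0 < Rr.N k := by linarith
  have h1 : ι * Real.log 5 / 8 + 2 * Real.log 7 ≤ ι * ε * Real.log (Rr.N k) / 4 := by
    have := (Real.le_log_iff_exp_le hN0).2 ((le_max_left _ _).trans hk)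
    rw [div_le_iff₀ (by positivity)] at this
    linarith
  have h2 : 2 ≤ Rr.N k ^ (ε / 2) := by
    have := Real.rpow_le_rpow (by positivity) ((le_max_right _ _).trans hk) (by positivity : 0 ≤ ε / 2)
    rwa [← Real.rpow_mul (by norm_num), show 2 / ε * (ε / 2) = 1 by field_simp, Real.rpow_one] at this
  have := k4wi_num_pt v.j hj (Rr.N k) ε U ι ζc M hN hε hU hι hζ hζι hM h1 h2
  rw [Fintype.card_fun, Fintype.card_fin, Fintype.card_fin]
  exact this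

/-! ## 9. The glue (helper294) -/

/-- the kept label is a function of a later parent -/
theorem k4wi_E_nest {E : KbEx v} (c : K4cCh v E) (k : ℕ) (Gd : Set (c.last.P k).W) (hne : Gd.Nonempty) (m i m' : ℕ) (hm : m + i + 1 ≤ m') :
    ∃ f : ((c.prob m').P k).W → (c.k4wiQ k Gd m i).C, ∀ ω, c.k4wiE k Gd m i ω = f (c.k4wiA k Gd m' ω) := by
  classical
  obtain ⟨g, hg⟩ := k4c_at_lab_nest c k m i m' hm
  obtain ⟨d0, hd0⟩ := hne
  let f : ((c.prob m').P k).W → {c' // c' ∈ c.k4wiKeep k Gd m i} :=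
    fun γ => if h : g γ ∈ c.k4wiKeep k Gd m i then ⟨g γ, h⟩ else ⟨c.labAt m i k d0, d0, hd0, rfl⟩
  refine ⟨f, fun ω => ?_⟩
  have h1 : g (c.k4wiA k Gd m' ω) = c.labAt m i k ω.1.1 := (hg ω.1.1).symm
  have h2 : g (c.k4wiA k Gd m' ω) ∈ c.k4wiKeep k Gd m i := ⟨ω.1.1, ω.1.2, h1.symm⟩
  have h3 : f (c.k4wiA k Gd m' ω) = ⟨g (c.k4wiA k Gd m' ω), h2⟩ := dif_pos h2
  refine Eq.trans ?_ h3.symm
  exact Subtype.ext h1.symm

theorem k4wi_A_nest {E : KbEx v} (c : K4cCh v E) (k : ℕ) (Gd : Set (c.last.P k).W) (m m' : ℕ) (hm : m ≤ m') :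
    ∃ f : ((c.prob m').P k).W → ((c.prob m).P k).W, ∀ ω, c.k4wiA k Gd m ω = f (c.k4wiA k Gd m' ω) := by
  obtain ⟨g, hg⟩ := k4c_at_anc_nest c k m m' hm
  exact ⟨g, fun ω => hg ω.1.1⟩

theorem k4wi_ne {P : KbPb v} {Gd : Set P.W} (hZ : P.mass (fun d => {_x | d ∈ Gd}) ≠ 0) : Gd.Nonempty := by
  by_contra h
  rw [Set.not_nonempty_iff_eq_empty] at h
  apply hZ
  unfold KbPb.mass
  refine Finset.sum_eq_zero fun d _ => ?_
  have : {_x : P.Lam × ℝ | d ∈ Gd} = ∅ := by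
    ext x
    simp [h]
  show P.om d * P.mu d {_x : P.Lam × ℝ | d ∈ Gd} = 0
  rw [this, measure_empty, mul_zero]

/-- **one sample** -/
theorem k4wi_core (R : K4wRun v) (p : KpPrm) (g : KpStg) (fr fri : R.Frs) (Gd : R.Gds) (k : ℕ) (Λ K : ℝ) (hlen : ∀ j < R.M, R.a j + R.G < R.c.len)
    (hc : R.c.WFat k) (hl : (R.c.last.P k).WF) (hE : (R.E.P k).WF) (hF : ∀ j < R.M, ((R.F j).P k).WF) (hZ : (R.c.last.P k).mass (fun d => {_x | d ∈ Gd k}) ≠ 0) (hM : 0 < R.M) (hΛ : 0 ≤ Λ)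
    (hgood : ∀ j < R.M, ∀ d ∈ Gd k, R.pa j k d ∉ (R.an j).lipBad p (fr j) Λ k) (hntv : (R.E.P k).Ntv K)
    (hMr : K / R.E.R.N k ^ (-(g.eps * g.U)) + 1 ≤ (⌈R.E.R.N k ^ (g.eps * (g.U + 1))⌉₊ : ℝ))
    (hnum : Real.log (Fintype.card (Fin v.j → Fin (2 * ⌈R.E.R.N k ^ (g.eps * (g.U + 1))⌉₊ + 1))) / R.M + Real.log (k4wiN v Λ) ≤ g.ι * (g.eps * Real.log (R.E.R.N k))) :
    ∃ j < R.M, (R.win g Gd j (fr j) (fri j)).InfoAt p g k := by
  have := k4wi_law_prob _ _ hl hZ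
  have hne := k4wi_ne hZ
  have hNj : ∀ j, (R.F j).R = R.E.R := fun j => k4c_ch_R R.c (R.a j)
  have hb : 0 < R.E.R.N k ^ (-(g.eps * g.U)) := Real.rpow_pos_of_pos (kb_res_pos _ _) _
  have hrng := k4wi_rng R.c k hc hE K _ hntv hb _ hMr
  have hbj : ∀ j, (R.F j).a (g.eps * g.U) k = R.E.R.N k ^ (-(g.eps * g.U)) := fun j => by
    unfold KbEx.a
    rw [hNj j]
  have haj : ∀ j, R.a j + R.G + 1 ≤ R.a (j + 1) := fun j => by
    unfold K4wRun.a
    have : (j + 1) * (R.G + 2) = j * (R.G + 2) + (R.G + 2) := by ring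
    omega
  obtain ⟨j, hj, h⟩ := k4wi_abs (k4wiLaw (R.c.last.P k) (Gd k)) (α := fun j => ((R.c.prob (R.a j)).P k).W) (ε := fun j => (R.c.k4wiQ k (Gd k) (R.a j) R.G).C)
    (β' := fun j => Fin v.j → Fin (2 * ⌈(R.F j).R.N k ^ (g.eps * (g.U + 1))⌉₊ + 1)) (β := Fin v.j → Fin (2 * ⌈R.E.R.N k ^ (g.eps * (g.U + 1))⌉₊ + 1))
    (A := fun j => R.c.k4wiA k (Gd k) (R.a j)) (E := fun j => R.c.k4wiE k (Gd k) (R.a j) R.G)
    (V := R.c.k4wiV k (Gd k) (R.E.R.N k ^ (-(g.eps * g.U))) ⌈R.E.R.N k ^ (g.eps * (g.U + 1))⌉₊)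
    (w := fun j => R.c.k4wiL k (Gd k) (R.a j) (k4wiPb ((R.F j).P k) p (fr j k) ((R.F j).a (g.eps * g.U) k) ⌈(R.F j).R.N k ^ (g.eps * (g.U + 1))⌉₊))
    (fun j => k4wi_A_lab R.c k (Gd k) (R.a j)) (k4wi_V_lab R.c k (Gd k) hE _ _)
    (fun j => k4wi_A_nest R.c k (Gd k) _ _ (by have := haj j; omega)) (fun j => k4wi_E_nest R.c k (Gd k) hne _ _ _ (haj j))
    (n := k4wiN v Λ) (by unfold k4wiN; positivity) hM (fun j _ => k4wi_E_lab R.c k (Gd k) (R.a j) R.G)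
    (fun j hj => k4wi_L_lab R.c k (Gd k) (R.a j) _ (k4wi_Pb_meas _ (hF j hj) p _ _ _)) (fun j hj => by
      simp only [hbj j]
      exact k4wi_opt R.c k (Gd k) hc hl (R.a j) (by have := hlen j hj; omega) p (fr j) Λ _ hΛ hb _ _ (hgood j hj) fun d _ => hrng d)
  refine ⟨j, hj, ?_⟩
  have hd := k4wi_dict R.c k (Gd k) hc hl (R.a j) R.G (hlen j hj)
    (k4wiPb ((R.F j).P k) p (fr j k) ((R.F j).a (g.eps * g.U) k) ⌈(R.F j).R.N k ^ (g.eps * (g.U + 1))⌉₊) (k4wi_Pb_meas _ (hF j hj) p _ _ _)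
  unfold KpWin.InfoAt
  have e1 : (R.win g Gd j (fr j) (fri j)).F.R.N k = R.E.R.N k := by
    show (R.F j).R.N k = _
    rw [hNj j]
  rw [e1]
  refine le_trans (le_of_eq ?_) (h.trans hnum)
  exact hd

/-- **the entropy window on a run** -/
theorem k4wi_hub : K4wHubInfo := by
  intro v R p S η τ δ ζc g fr fri Gd hη hp hpS hτ hτ1 hg hζ hζι hR hfr hGd
  have hε := hg.eps_pos
  have hι := hg.ι_pos
  have hU : 0 ≤ g.U := by
    have h2 := hg.U_ge
    have h3 : 0 < 1 / τ := by positivity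
    linarith
  have hM : 0 < R.M := by
    have h1 := hR.M_ge
    by_contra h0
    have h2 : R.M = 0 := by omega
    rw [h2] at h1
    simp only [Nat.cast_zero, mul_zero] at h1
    linarith
  have hlen0 : 0 < R.c.len := by
    rw [hR.len]
    positivity
  have hEcap : R.E.Cap R.d' S η (R.f 0) := by
    have := k4c_ch_cap R.c hR.chain 0 hlen0
    rwa [k4c_prob_zero] at this
  obtain ⟨ME, hME⟩ := hEcap.ok.2.1
  obtain ⟨Ml, hMl⟩ := hR.last.ok.2.1
  have hα : 0 < g.ι * g.eps / 16 := by positivity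
  have hFj : ∀ j ∈ Finset.range (R.M + 1), ∀ᶠ k in uf, ((R.F j).P k).WF := fun j hj => by
    obtain ⟨Mj, hMj⟩ := (k4w_F_cap hR (Nat.lt_succ_iff.1 (Finset.mem_range.1 hj))).ok.2.1
    exact hMj.mono fun k hk => hk.1
  have hFj' := (eventually_all_finset _).2 hFj
  have hlast := hR.last.ok.2.2 1 one_pos
  filter_upwards [k4c_ch_wfat R.c hR.chain, hME, hMl, hGd.good _ hα, hGd.big, hEcap.ok.2.2 (g.eps / 2) (by positivity), hlast, hFj',
    k4wi_num v R.E.R g.eps g.U g.ι ζc R.M hε hU hι hζ hζι hR.M_ge] with k e1 e2 e3 e4 e5 e6 e7 e8 e9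
  have hZ : (R.c.last.P k).mass (fun d => {_x | d ∈ Gd k}) ≠ 0 := by
    intro h0
    rw [h0, mul_zero] at e5
    have h1 := e7.mass
    rw [nonpos_iff_eq_zero.1 e5, mul_zero] at h1
    exact absurd h1 (by norm_num)
  refine k4wi_core R p g fr fri Gd k (R.E.R.N k ^ (ζc + g.ι * g.eps / 16)) (R.E.R.N k ^ (g.eps / 2)) (fun j hj => k4w_a_lt hR hj.le le_rfl) e1 e3.1 e2.1
    (fun j hj => e8 j (Finset.mem_range.2 (by omega))) hZ hM (Real.rpow_nonneg (kb_res_pos _ _).le _) (fun j hj d hd hbad => ?_) e6 e9.2 e9.1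
  refine e4 d hd ⟨j, hj.le, Or.inr (Or.inr ?_)⟩
  have hNj : (R.F j).R = R.E.R := k4c_ch_R R.c (R.a j)
  rw [hNj]
  exact hbad

end

end Claimed.Agent.R252
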